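import Mathlib

/-!
Fast-slow differential rings (P205, local piece lemma).

`R` is a commutative real algebra with two slow derivations `D1, D2`, one fast derivation `Dt`,
the mean `mn` and the primitive `pr` in the fast variable and a slow primitive `J` in the second
variable.  For a slow element `a` (the amplitude) `Gr a` is the ideal of the elements
`a w + a² m` (`w` of mean zero, `m` slow) and `Os a` the ring of the elements `a w + s`.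
-/

namespace Vale.Agent.P205.WK

/-- fast-slow differential ring -/
structure FS (R : Type*) [CommRing R] [Algebra ℝ R] where
  /-- first slow derivation -/
  D1 : R →ₗ[ℝ] R
  /-- second slow derivation -/
  D2 : R →ₗ[ℝ] R
  /-- fast derivation -/
  Dt : R →ₗ[ℝ] R
  /-- mean -/
  mn : R →ₗ[ℝ] R
  /-- primitive with mean zero -/
  pr : R →ₗ[ℝ] R
  /-- slow primitive -/
  J : R → R
  D1_mul : ∀ u v, D1 (u * v) = D1 u * v + u * D1 v
  D2_mul : ∀ u v, D2 (u * v) = D2 u * v + u * D2 v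
  Dt_mul : ∀ u v, Dt (u * v) = Dt u * v + u * Dt v
  Dt_D1 : ∀ u, Dt (D1 u) = D1 (Dt u)
  Dt_D2 : ∀ u, Dt (D2 u) = D2 (Dt u)
  mn_one : mn 1 = 1
  mn_mul' : ∀ u v, mn (mn u * v) = mn u * mn v
  mn_D1 : ∀ u, mn (D1 u) = D1 (mn u)
  mn_D2 : ∀ u, mn (D2 u) = D2 (mn u)
  mn_Dt : ∀ u, mn (Dt u) = 0
  Dt_mn : ∀ u, Dt (mn u) = 0
  Dt_pr : ∀ u, Dt (pr u) = u - mn u
  mn_pr : ∀ u, mn (pr u) = 0
  pr_mul' : ∀ u v, pr (mn u * v) = mn u * pr v
  pr_mn : ∀ u, pr (mn u) = 0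
  J_slow : ∀ u, mn (J (mn u)) = J (mn u)
  D2_J : ∀ u, D2 (J (mn u)) = mn u

namespace FS

variable {R : Type*} [CommRing R] [Algebra ℝ R] (S : FS R)

/-- slow elements -/
def Sl (u : R) : Prop := S.mn u = u

variable {S}

lemma mn_mn (u : R) : S.mn (S.mn u) = S.mn u := by
  have := S.mn_mul' u 1
  rwa [mul_one, S.mn_one, mul_one] at this

lemma sl_mn (u : R) : S.Sl (S.mn u) := mn_mn u

lemma Sl.mn_mul {s : R} (hs : S.Sl s) (v : R) : S.mn (s * v) = s * S.mn v := by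
  have := S.mn_mul' s v
  rwa [show S.mn s = s from hs] at this

lemma Sl.pr_mul {s : R} (hs : S.Sl s) (v : R) : S.pr (s * v) = s * S.pr v := by
  have := S.pr_mul' s v
  rwa [show S.mn s = s from hs] at this

lemma Sl.mul {s t : R} (hs : S.Sl s) (ht : S.Sl t) : S.Sl (s * t) := by
  show S.mn (s * t) = s * t
  rw [hs.mn_mul, show S.mn t = t from ht]

lemma Sl.add {s t : R} (hs : S.Sl s) (ht : S.Sl t) : S.Sl (s + t) := by
  show S.mn (s + t) = s + t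
  rw [map_add, show S.mn t = t from ht, show S.mn s = s from hs]

lemma Sl.neg {s : R} (hs : S.Sl s) : S.Sl (-s) := by
  show S.mn (-s) = -s
  rw [map_neg, show S.mn s = s from hs]

lemma Sl.sub {s t : R} (hs : S.Sl s) (ht : S.Sl t) : S.Sl (s - t) := by
  rw [sub_eq_add_neg]; exact hs.add ht.neg

lemma sl_one : S.Sl (1 : R) := S.mn_one

lemma sl_zero : S.Sl (0 : R) := map_zero _

lemma Sl.smul {s : R} (c : ℝ) (hs : S.Sl s) : S.Sl (c • s) := by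
  show S.mn (c • s) = c • s
  rw [map_smul, show S.mn s = s from hs]

lemma Sl.pow {s : R} (hs : S.Sl s) (n : ℕ) : S.Sl (s ^ n) := by
  induction n with
  | zero => rw [pow_zero]; exact sl_one
  | succ n ih => rw [pow_succ]; exact ih.mul hs

lemma Sl.D1 {s : R} (hs : S.Sl s) : S.Sl (S.D1 s) := by
  show S.mn (S.D1 s) = S.D1 s
  rw [S.mn_D1, show S.mn s = s from hs]

lemma Sl.D2 {s : R} (hs : S.Sl s) : S.Sl (S.D2 s) := by
  show S.mn (S.D2 s) = S.D2 s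
  rw [S.mn_D2, show S.mn s = s from hs]

lemma Sl.Dt {s : R} (hs : S.Sl s) : S.Dt s = 0 := by
  rw [← show S.mn s = s from hs, S.Dt_mn]

lemma Sl.pr {s : R} (hs : S.Sl s) : S.pr s = 0 := by
  rw [← show S.mn s = s from hs, S.pr_mn]

/-- elements `a w + a² m`, `w` of mean zero, `m` slow -/
def Gr (S : FS R) (a u : R) : Prop := ∃ w m, S.mn w = 0 ∧ S.Sl m ∧ u = a * w + a ^ 2 * m

/-- elements `a w + s`, `w` of mean zero, `s` slow -/
def Os (S : FS R) (a u : R) : Prop := ∃ w s, S.mn w = 0 ∧ S.Sl s ∧ u = a * w + s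

/-- amplitude data: `a` slow, `D_i a = a l_i` -/
structure Amp (S : FS R) (a l1 l2 : R) : Prop where
  sa : S.Sl a
  s1 : S.Sl l1
  s2 : S.Sl l2
  h1 : S.D1 a = a * l1
  h2 : S.D2 a = a * l2

variable {a l1 l2 : R}

lemma Gr.os {u : R} (ha : S.Sl a) (h : S.Gr a u) : S.Os a u := by
  obtain ⟨w, m, hw, hm, rfl⟩ := h
  exact ⟨w, a ^ 2 * m, hw, (ha.pow 2).mul hm, rfl⟩

lemma Sl.os {s : R} (hs : S.Sl s) : S.Os a s := ⟨0, s, map_zero _, hs, by ring⟩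

lemma Os.add {u v : R} (hu : S.Os a u) (hv : S.Os a v) : S.Os a (u + v) := by
  obtain ⟨w, m, hw, hm, rfl⟩ := hu
  obtain ⟨w', m', hw', hm', rfl⟩ := hv
  exact ⟨w + w', m + m', by rw [map_add, hw, hw', add_zero], hm.add hm', by ring⟩

lemma Os.neg {u : R} (hu : S.Os a u) : S.Os a (-u) := by
  obtain ⟨w, m, hw, hm, rfl⟩ := hu
  exact ⟨-w, -m, by rw [map_neg, hw, neg_zero], hm.neg, by ring⟩

lemma Os.smul {u : R} (c : ℝ) (hu : S.Os a u) : S.Os a (c • u) := by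
  obtain ⟨w, m, hw, hm, rfl⟩ := hu
  exact ⟨c • w, c • m, by rw [map_smul, hw, smul_zero], hm.smul c, by
    rw [smul_add, mul_smul_comm]⟩

lemma Os.mul {u v : R} (ha : S.Sl a) (hu : S.Os a u) (hv : S.Os a v) : S.Os a (u * v) := by
  obtain ⟨w, m, hw, hm, rfl⟩ := hu
  obtain ⟨w', m', hw', hm', rfl⟩ := hv
  refine ⟨a * (w * w' - S.mn (w * w')) + w * m' + m * w', a ^ 2 * S.mn (w * w') + m * m', ?_,
    ((ha.pow 2).mul (sl_mn _)).add (hm.mul hm'), by ring⟩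
  rw [map_add, map_add, ha.mn_mul, map_sub, mn_mn, mul_comm w m', hm'.mn_mul, hm.mn_mul, hw, hw']
  ring

lemma gr_zero : S.Gr a 0 := ⟨0, 0, map_zero _, sl_zero, by ring⟩

lemma Gr.add {u v : R} (hu : S.Gr a u) (hv : S.Gr a v) : S.Gr a (u + v) := by
  obtain ⟨w, m, hw, hm, rfl⟩ := hu
  obtain ⟨w', m', hw', hm', rfl⟩ := hv
  exact ⟨w + w', m + m', by rw [map_add, hw, hw', add_zero], hm.add hm', by ring⟩

lemma Gr.neg {u : R} (hu : S.Gr a u) : S.Gr a (-u) := by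
  obtain ⟨w, m, hw, hm, rfl⟩ := hu
  exact ⟨-w, -m, by rw [map_neg, hw, neg_zero], hm.neg, by ring⟩

lemma Gr.sub {u v : R} (hu : S.Gr a u) (hv : S.Gr a v) : S.Gr a (u - v) := by
  rw [sub_eq_add_neg]; exact hu.add hv.neg

lemma Gr.smul {u : R} (c : ℝ) (hu : S.Gr a u) : S.Gr a (c • u) := by
  obtain ⟨w, m, hw, hm, rfl⟩ := hu
  exact ⟨c • w, c • m, by rw [map_smul, hw, smul_zero], hm.smul c, by
    rw [smul_add, mul_smul_comm, mul_smul_comm]⟩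

lemma Os.mul_gr {u v : R} (ha : S.Sl a) (hu : S.Os a u) (hv : S.Gr a v) : S.Gr a (u * v) := by
  obtain ⟨w, m, hw, hm, rfl⟩ := hu
  obtain ⟨w', m', hw', hm', rfl⟩ := hv
  refine ⟨a * (w * w' - S.mn (w * w')) + a ^ 2 * (m' * w) + m * w',
    S.mn (w * w') + m * m', ?_, (sl_mn _).add (hm.mul hm'), by ring⟩
  rw [map_add, map_add, ha.mn_mul, map_sub, mn_mn, (ha.pow 2).mn_mul, hm'.mn_mul, hm.mn_mul,
    hw, hw']
  ring

lemma Gr.mul_os {u v : R} (ha : S.Sl a) (hu : S.Gr a u) (hv : S.Os a v) : S.Gr a (u * v) := by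
  rw [mul_comm]; exact hv.mul_gr ha hu

lemma Gr.slmul {s u : R} (ha : S.Sl a) (hs : S.Sl s) (hu : S.Gr a u) : S.Gr a (s * u) :=
  (hs.os).mul_gr ha hu

lemma Gr.D1 {u : R} (A : S.Amp a l1 l2) (hu : S.Gr a u) : S.Gr a (S.D1 u) := by
  obtain ⟨w, m, hw, hm, rfl⟩ := hu
  refine ⟨S.D1 w + l1 * w, S.D1 m + 2 * (l1 * m), ?_, hm.D1.add ?_, ?_⟩
  · rw [map_add, S.mn_D1, hw, A.s1.mn_mul, hw, map_zero, mul_zero, add_zero]
  · rw [two_mul]; exact (A.s1.mul hm).add (A.s1.mul hm)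
  · rw [map_add, S.D1_mul, S.D1_mul, pow_two, S.D1_mul, A.h1]; ring

lemma Gr.D2 {u : R} (A : S.Amp a l1 l2) (hu : S.Gr a u) : S.Gr a (S.D2 u) := by
  obtain ⟨w, m, hw, hm, rfl⟩ := hu
  refine ⟨S.D2 w + l2 * w, S.D2 m + 2 * (l2 * m), ?_, hm.D2.add ?_, ?_⟩
  · rw [map_add, S.mn_D2, hw, A.s2.mn_mul, hw, map_zero, mul_zero, add_zero]
  · rw [two_mul]; exact (A.s2.mul hm).add (A.s2.mul hm)
  · rw [map_add, S.D2_mul, S.D2_mul, pow_two, S.D2_mul, A.h2]; ring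

lemma Os.Dt {u : R} (ha : S.Sl a) (hu : S.Os a u) : S.Gr a (S.Dt u) := by
  obtain ⟨w, m, hw, hm, rfl⟩ := hu
  refine ⟨S.Dt w, 0, S.mn_Dt w, sl_zero, ?_⟩
  rw [map_add, S.Dt_mul, ha.Dt, hm.Dt]; ring

lemma Gr.Dt {u : R} (ha : S.Sl a) (hu : S.Gr a u) : S.Gr a (S.Dt u) := (hu.os ha).Dt ha

lemma Gr.pr {u : R} (ha : S.Sl a) (hu : S.Gr a u) : S.Gr a (S.pr u) := by
  obtain ⟨w, m, hw, hm, rfl⟩ := hu
  refine ⟨S.pr w, 0, S.mn_pr w, sl_zero, ?_⟩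
  rw [map_add, ha.pr_mul, ((ha.pow 2).mul hm).pr]; ring

lemma Gr.of_zm {w : R} (hw : S.mn w = 0) : S.Gr a (a * w) := ⟨w, 0, hw, sl_zero, by ring⟩

lemma Gr.mn {u : R} (ha : S.Sl a) (hu : S.Gr a u) : ∃ m, S.Sl m ∧ S.mn u = a ^ 2 * m := by
  obtain ⟨w, m, hw, hm, rfl⟩ := hu
  refine ⟨m, hm, ?_⟩
  rw [map_add, ha.mn_mul, hw, ((ha.pow 2).mul hm : S.Sl _)]; ring

lemma Gr.dot {A B : Fin 4 → R} (ha : S.Sl a) (hA : ∀ i, S.Os a (A i)) (hB : ∀ i, S.Gr a (B i)) :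
    S.Gr a (A ⬝ᵥ B) := by
  rw [dotProduct, Fin.sum_univ_four]
  exact ((((hA 0).mul_gr ha (hB 0)).add ((hA 1).mul_gr ha (hB 1))).add
    ((hA 2).mul_gr ha (hB 2))).add ((hA 3).mul_gr ha (hB 3))

/-- vector derivatives -/
def v1 (S : FS R) (X : Fin 4 → R) : Fin 4 → R := fun i => S.D1 (X i)
/-- vector derivatives -/
def v2 (S : FS R) (X : Fin 4 → R) : Fin 4 → R := fun i => S.D2 (X i)
/-- vector derivatives -/
def vt (S : FS R) (X : Fin 4 → R) : Fin 4 → R := fun i => S.Dt (X i)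

lemma v1_add (x y : Fin 4 → R) : S.v1 (x + y) = S.v1 x + S.v1 y := by
  ext i; simp [v1]
lemma v2_add (x y : Fin 4 → R) : S.v2 (x + y) = S.v2 x + S.v2 y := by
  ext i; simp [v2]
lemma vt_add (x y : Fin 4 → R) : S.vt (x + y) = S.vt x + S.vt y := by
  ext i; simp [vt]
lemma v1_smul (s : R) (x : Fin 4 → R) : S.v1 (s • x) = S.D1 s • x + s • S.v1 x := by
  ext i; simp [v1, S.D1_mul]
lemma v2_smul (s : R) (x : Fin 4 → R) : S.v2 (s • x) = S.D2 s • x + s • S.v2 x := by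
  ext i; simp [v2, S.D2_mul]
lemma vt_smul (s : R) (x : Fin 4 → R) : S.vt (s • x) = S.Dt s • x + s • S.vt x := by
  ext i; simp [vt, S.Dt_mul]

lemma D2_dot (x y : Fin 4 → R) : S.D2 (x ⬝ᵥ y) = S.v2 x ⬝ᵥ y + x ⬝ᵥ S.v2 y := by
  simp only [dotProduct, Fin.sum_univ_four, v2, map_add, S.D2_mul]; ring
lemma Dt_dot (x y : Fin 4 → R) : S.Dt (x ⬝ᵥ y) = S.vt x ⬝ᵥ y + x ⬝ᵥ S.vt y := by
  simp only [dotProduct, Fin.sum_univ_four, vt, map_add, S.Dt_mul]; ring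

end FS

end Vale.Agent.P205.WK
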