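import Vale.Agent.P205.WK.Ring

/-!
Classes of families on the open square times the circle (P205, full question).

`Fn μ n K u`: bounds for words of length `≤ n`, `|D^w u_i| ≤ C μ_i^(K+|w|) om^K'`.
`FK μ K u`: smooth, periodic, and `Fn μ n K u` for all `n`.
`U μ u`: positive and logarithmically tame.
-/

open Set Filter
open scoped ContDiff Topology Real

namespace Vale.Agent.P205.WK

variable {ι : Type*}

/-- bounds for words of length at most `n` -/
def Fn (μ : ι → ℝ) (n K : ℕ) (u : ι → Q → ℝ) : Prop :=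
  ∃ C : ℝ, ∃ K' : ℕ, 0 ≤ C ∧ ∀ i, ∀ w : List (Fin 3), w.length ≤ n → ∀ p,
    |wd w (u i) p| ≤ C * μ i ^ (K + w.length) * om p ^ K'

/-- smooth periodic families with polynomial bounds for all derivatives -/
structure FK (μ : ι → ℝ) (K : ℕ) (u : ι → Q → ℝ) : Prop where
  sm : ∀ i, ContDiff ℝ ∞ (u i)
  per : ∀ i, Per (u i)
  bd : ∀ n, Fn μ n K u

section Fn

variable {μ : ι → ℝ} {n K L : ℕ} {u v : ι → Q → ℝ}

theorem mono_const {C C' m x : ℝ} {K' L' : ℕ} {p : Q} (hC : 0 ≤ C) (hCC : C ≤ C')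
    (hK : K' ≤ L') (hm : 0 ≤ m) (h : x ≤ C * m * om p ^ K') : x ≤ C' * m * om p ^ L' := by
  have h1 : om p ^ K' ≤ om p ^ L' := pow_le_pow_right₀ (om_ge_one p) hK
  have h2 : 0 ≤ om p ^ K' := pow_nonneg (om_pos p).le _
  calc x ≤ C * m * om p ^ K' := h
    _ ≤ C' * m * om p ^ L' :=
      mul_le_mul (mul_le_mul_of_nonneg_right hCC hm) h1 h2 (mul_nonneg (hC.trans hCC) hm)

theorem Fn.mono_n {m : ℕ} (h : Fn μ n K u) (hm : m ≤ n) : Fn μ m K u := by
  obtain ⟨C, K', hC, h⟩ := h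
  exact ⟨C, K', hC, fun i w hw p => h i w (hw.trans hm) p⟩

theorem Fn.congr (h : Fn μ n K u) (e : ∀ i p, u i p = v i p) : Fn μ n K v := by
  have e1 : u = v := funext fun i => funext fun p => e i p
  rwa [e1] at h

theorem Fn.mono_K (hμ : ∀ i, 1 ≤ μ i) (h : Fn μ n K u) (hK : K ≤ L) : Fn μ n L u := by
  obtain ⟨C, K', hC, h⟩ := h
  refine ⟨C, K', hC, fun i w hw p => (h i w hw p).trans ?_⟩
  have h1 : μ i ^ (K + w.length) ≤ μ i ^ (L + w.length) :=
    pow_le_pow_right₀ (hμ i) (Nat.add_le_add_right hK _)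
  exact mul_le_mul_of_nonneg_right (mul_le_mul_of_nonneg_left h1 hC) (pow_nonneg (om_pos p).le _)

theorem Fn.zero_iff : Fn μ 0 K u ↔ ∃ C : ℝ, ∃ K' : ℕ, 0 ≤ C ∧ ∀ i p,
    |u i p| ≤ C * μ i ^ K * om p ^ K' := by
  constructor
  · rintro ⟨C, K', hC, h⟩
    exact ⟨C, K', hC, fun i p => h i [] le_rfl p⟩
  · rintro ⟨C, K', hC, h⟩
    refine ⟨C, K', hC, fun i w hw p => ?_⟩
    have hw0 : w = [] := List.length_eq_zero_iff.1 (Nat.le_zero.1 hw)
    subst hw0
    exact h i p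

theorem Fn.D (h : Fn μ (n + 1) K u) (j : Fin 3) : Fn μ n (K + 1) (fun i => WK.D j (u i)) := by
  obtain ⟨C, K', hC, h⟩ := h
  refine ⟨C, K', hC, fun i w hw p => ?_⟩
  have h1 := h i (w ++ [j]) (by simpa using hw) p
  rw [wd_snoc, List.length_append, List.length_singleton] at h1
  rwa [show K + 1 + w.length = K + (w.length + 1) by ring]

theorem Fn.succ (hμ : ∀ i, 1 ≤ μ i) (h0 : Fn μ 0 K u)
    (h : ∀ j, Fn μ n (K + 1) (fun i => WK.D j (u i))) : Fn μ (n + 1) K u := by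
  obtain ⟨C0, K0, hC0, h0⟩ := h0
  choose C K' hC h using h
  refine ⟨C0 + ∑ j, C j, K0 + ∑ j, K' j, add_nonneg hC0 (Finset.sum_nonneg fun j _ => hC j),
    fun i w hw p => ?_⟩
  have hm : ∀ m, 0 ≤ μ i ^ m := fun m => pow_nonneg (zero_le_one.trans (hμ i)) m
  rcases List.eq_nil_or_concat w with rfl | ⟨w', j, rfl⟩
  · exact mono_const hC0 (le_add_of_nonneg_right (Finset.sum_nonneg fun j _ => hC j))
      (Nat.le_add_right _ _) (hm _) (h0 i [] le_rfl p)
  · rw [List.concat_eq_append] at hw ⊢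
    have hw' : w'.length ≤ n := by simpa using hw
    have h1 := h j i w' hw' p
    rw [wd_snoc, List.length_append, List.length_singleton,
      show K + (w'.length + 1) = K + 1 + w'.length by ring]
    refine mono_const (hC j) ?_ ?_ (hm _) h1
    · exact (Finset.single_le_sum (fun j _ => hC j) (Finset.mem_univ j)).trans
        (le_add_of_nonneg_left hC0)
    · exact (Finset.single_le_sum (f := K') (fun j _ => Nat.zero_le _)
        (Finset.mem_univ j)).trans (Nat.le_add_left _ _)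

/-- bootstrap -/
theorem Fn.boot (hμ : ∀ i, 1 ≤ μ i) (h0 : Fn μ 0 K u)
    (h : ∀ n, Fn μ n K u → ∀ j, Fn μ n (K + 1) (fun i => WK.D j (u i))) (n : ℕ) :
    Fn μ n K u := by
  induction n with
  | zero => exact h0
  | succ n ih => exact Fn.succ hμ h0 (h n ih)

theorem Fn.add (hμ : ∀ i, 1 ≤ μ i) (hu : ∀ i, ContDiff ℝ ∞ (u i))
    (hv : ∀ i, ContDiff ℝ ∞ (v i)) (h : Fn μ n K u) (h' : Fn μ n K v) :
    Fn μ n K (fun i => u i + v i) := by
  obtain ⟨C, K1, hC, h⟩ := h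
  obtain ⟨C', K2, hC', h'⟩ := h'
  refine ⟨C + C', K1 + K2, add_nonneg hC hC', fun i w hw p => ?_⟩
  have hm : 0 ≤ μ i ^ (K + w.length) := pow_nonneg (zero_le_one.trans (hμ i)) _
  rw [wd_add w (hu i) (hv i), Pi.add_apply, add_mul, add_mul]
  exact (abs_add_le _ _).trans (add_le_add
    (mono_const hC le_rfl (Nat.le_add_right _ _) hm (h i w hw p))
    (mono_const hC' le_rfl (Nat.le_add_left _ _) hm (h' i w hw p)))

theorem wd_neg (w : List (Fin 3)) (u : Q → ℝ) : wd w (-u) = -wd w u := by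
  induction w with
  | nil => rfl
  | cons j w ih =>
    change WK.D j (wd w (-u)) = -WK.D j (wd w u)
    rw [ih, D_neg]

theorem Fn.neg (h : Fn μ n K u) : Fn μ n K (fun i => -u i) := by
  obtain ⟨C, K', hC, h⟩ := h
  refine ⟨C, K', hC, fun i w hw p => ?_⟩
  rw [wd_neg, Pi.neg_apply, abs_neg]
  exact h i w hw p

theorem Fn.mul (hμ : ∀ i, 1 ≤ μ i) (hu : ∀ i, ContDiff ℝ ∞ (u i))
    (hv : ∀ i, ContDiff ℝ ∞ (v i)) (h : Fn μ n K u) (h' : Fn μ n L v) :
    Fn μ n (K + L) (fun i => u i * v i) := by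
  induction n generalizing K L u v with
  | zero =>
    rw [Fn.zero_iff] at h h' ⊢
    obtain ⟨C, K1, hC, h⟩ := h
    obtain ⟨C', K2, hC', h'⟩ := h'
    refine ⟨C * C', K1 + K2, mul_nonneg hC hC', fun i p => ?_⟩
    have hm : ∀ m, 0 ≤ μ i ^ m := fun m => pow_nonneg (zero_le_one.trans (hμ i)) m
    have ho : ∀ m, 0 ≤ om p ^ m := fun m => pow_nonneg (om_pos p).le m
    rw [Pi.mul_apply, abs_mul]
    calc |u i p| * |v i p| ≤ (C * μ i ^ K * om p ^ K1) * (C' * μ i ^ L * om p ^ K2) :=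
          mul_le_mul (h i p) (h' i p) (abs_nonneg _)
            (mul_nonneg (mul_nonneg hC (hm _)) (ho _))
      _ = C * C' * μ i ^ (K + L) * om p ^ (K1 + K2) := by ring
  | succ n ih =>
    refine Fn.succ hμ ?_ fun j => ?_
    · have h0 := h.mono_n (Nat.zero_le _)
      have h0' := h'.mono_n (Nat.zero_le _)
      rw [Fn.zero_iff] at h0 h0' ⊢
      obtain ⟨C, K1, hC, h0⟩ := h0
      obtain ⟨C', K2, hC', h0'⟩ := h0'
      refine ⟨C * C', K1 + K2, mul_nonneg hC hC', fun i p => ?_⟩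
      have hm : ∀ m, 0 ≤ μ i ^ m := fun m => pow_nonneg (zero_le_one.trans (hμ i)) m
      have ho : ∀ m, 0 ≤ om p ^ m := fun m => pow_nonneg (om_pos p).le m
      rw [Pi.mul_apply, abs_mul]
      calc |u i p| * |v i p| ≤ (C * μ i ^ K * om p ^ K1) * (C' * μ i ^ L * om p ^ K2) :=
            mul_le_mul (h0 i p) (h0' i p) (abs_nonneg _)
              (mul_nonneg (mul_nonneg hC (hm _)) (ho _))
        _ = C * C' * μ i ^ (K + L) * om p ^ (K1 + K2) := by ring
    · have e1 := ih (fun i => smooth_D j (hu i)) hv (h.D j) (h'.mono_n (Nat.le_succ n))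
      have e2 := ih hu (fun i => smooth_D j (hv i)) (h.mono_n (Nat.le_succ n)) (h'.D j)
      rw [show K + 1 + L = K + L + 1 by ring] at e1
      rw [← add_assoc] at e2
      refine (e1.add hμ (fun i => (smooth_D j (hu i)).mul (hv i))
        (fun i => (hu i).mul (smooth_D j (hv i))) e2).congr fun i p => ?_
      rw [D_mul j (hu i) (hv i)]
      rfl

theorem wd_const (w : List (Fin 3)) (hw : w ≠ []) (c : ℝ) : wd w (fun _ => c) = 0 := by
  induction w with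
  | nil => exact absurd rfl hw
  | cons j w ih =>
    change WK.D j (wd w (fun _ => c)) = 0
    by_cases h : w = []
    · subst h
      exact D_const j c
    · rw [ih h]
      exact D_const j 0

theorem Fn.const (hμ : ∀ i, 1 ≤ μ i) {c : ι → ℝ} {C : ℝ} (hc : ∀ i, |c i| ≤ C * μ i ^ K) :
    Fn μ n K (fun i _ => c i) := by
  refine ⟨|C|, 0, abs_nonneg C, fun i w _ p => ?_⟩
  have hm : ∀ m, 0 ≤ μ i ^ m := fun m => pow_nonneg (zero_le_one.trans (hμ i)) m
  by_cases h : w = []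
  · subst h
    simp only [List.length_nil, add_zero, pow_zero, mul_one]
    exact (hc i).trans (mul_le_mul_of_nonneg_right (le_abs_self C) (hm K))
  · rw [wd_const w h, Pi.zero_apply, abs_zero]
    exact mul_nonneg (mul_nonneg (abs_nonneg C) (hm _)) (pow_nonneg (om_pos p).le _)

theorem Fn.Av {k : ℝ → ℝ} {B : ℝ} (hk : ContDiff ℝ ∞ k)
    (hB : ∀ s ∈ Ioc 0 (2 * π), |k s| ≤ B) (hB0 : 0 ≤ B) (hu : ∀ i, ContDiff ℝ ∞ (u i))
    (h : Fn μ n K u) : Fn μ n K (fun i => WK.Av k (u i)) := by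
  obtain ⟨C, K', hC, h⟩ := h
  refine ⟨B * C * (2 * π), K', by positivity, fun i w hw p => ?_⟩
  rw [wd_Av hk (hu i)]
  have h1 := abs_Av_le (u := wd w (u i)) (p := p) (M := C * μ i ^ (K + w.length) * om p ^ K')
    hB hB0 fun s => h i w hw (p.1, p.2.1, s)
  refine h1.trans (le_of_eq ?_)
  ring

theorem om_mono {a b c t t' : ℝ} (h : |b| ≤ |c|) : om (a, b, t) ≤ om (a, c, t') := by
  unfold om
  have h1 : b ^ 2 ≤ c ^ 2 := sq_le_sq.2 h
  have h2 : 0 ≤ 1 + a ^ 2 := by positivity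
  exact mul_le_mul_of_nonneg_left (by linarith) h2

theorem abs_snd_le_om (p : Q) : |p.2.1| ≤ om p := by
  unfold om
  have h1 : |p.2.1| ≤ 1 + p.2.1 ^ 2 := by
    rw [← sq_abs p.2.1]
    nlinarith [sq_nonneg (|p.2.1| - 1), abs_nonneg p.2.1]
  nlinarith [sq_nonneg p.1, sq_nonneg p.2.1, mul_nonneg (sq_nonneg p.1) (sq_nonneg p.2.1)]

theorem Fn.J (hμ : ∀ i, 1 ≤ μ i) (hu : ∀ i, ContDiff ℝ ∞ (u i)) (h : Fn μ n K u) :
    Fn μ n K (fun i => WK.J (u i)) := by
  have key : ∀ {K : ℕ} {u : ι → Q → ℝ}, Fn μ 0 K u → Fn μ 0 K (fun i => WK.J (u i)) := by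
    intro K u h
    rw [Fn.zero_iff] at h ⊢
    obtain ⟨C, K', hC, h⟩ := h
    refine ⟨C, K' + 1, hC, fun i p => ?_⟩
    have hm : ∀ m, 0 ≤ μ i ^ m := fun m => pow_nonneg (zero_le_one.trans (hμ i)) m
    have h1 := abs_J_le (u := u i) (p := p) (M := C * μ i ^ K * om p ^ K') fun τ hτ => by
      refine (h i (p.1, τ, p.2.2)).trans ?_
      have h2 : om (p.1, τ, p.2.2) ^ K' ≤ om p ^ K' :=
        pow_le_pow_left₀ (om_pos _).le (om_mono (t := p.2.2) (t' := p.2.2) hτ) _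
      exact mul_le_mul_of_nonneg_left h2 (mul_nonneg hC (hm _))
    refine h1.trans ?_
    rw [pow_succ, ← mul_assoc]
    exact mul_le_mul_of_nonneg_left (abs_snd_le_om p)
      (mul_nonneg (mul_nonneg hC (hm _)) (pow_nonneg (om_pos p).le _))
  induction n generalizing K u with
  | zero => exact key h
  | succ n ih =>
    refine Fn.succ hμ (key (h.mono_n (Nat.zero_le _))) fun j => ?_
    by_cases hj : j = 1
    · subst hj
      refine ((h.mono_n (Nat.le_succ n)).mono_K hμ (Nat.le_succ K)).congr fun i p => ?_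
      rw [D1_J (hu i)]
    · refine (ih (fun i => smooth_D j (hu i)) (h.D j)).congr fun i p => ?_
      rw [D_J hj (hu i)]

end Fn

/-! ### the classes `FK` -/

section FK

variable {μ : ι → ℝ} {K L : ℕ} {u v : ι → Q → ℝ}

theorem FK.congr (h : FK μ K u) (e : ∀ i p, u i p = v i p) : FK μ K v := by
  have e1 : u = v := funext fun i => funext fun p => e i p
  rwa [e1] at h

theorem FK.apply (h : FK μ K u) : ∃ C : ℝ, ∃ K' : ℕ, 0 ≤ C ∧ ∀ i p,
    |u i p| ≤ C * μ i ^ K * om p ^ K' := Fn.zero_iff.1 (h.bd 0)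

theorem FK.mono (hμ : ∀ i, 1 ≤ μ i) (h : FK μ K u) (hK : K ≤ L) : FK μ L u :=
  ⟨h.sm, h.per, fun n => (h.bd n).mono_K hμ hK⟩

theorem FK.add (hμ : ∀ i, 1 ≤ μ i) (h : FK μ K u) (h' : FK μ K v) :
    FK μ K (fun i => u i + v i) :=
  ⟨fun i => (h.sm i).add (h'.sm i), fun i => per_add (h.per i) (h'.per i),
    fun n => (h.bd n).add hμ h.sm h'.sm (h'.bd n)⟩

theorem FK.neg (h : FK μ K u) : FK μ K (fun i => -u i) :=
  ⟨fun i => (h.sm i).neg, fun i => per_neg (h.per i), fun n => (h.bd n).neg⟩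

theorem FK.sub (hμ : ∀ i, 1 ≤ μ i) (h : FK μ K u) (h' : FK μ K v) :
    FK μ K (fun i => u i - v i) :=
  (h.add hμ h'.neg).congr fun i p => by
    rw [Pi.add_apply, Pi.neg_apply, Pi.sub_apply, sub_eq_add_neg]

theorem FK.mul (hμ : ∀ i, 1 ≤ μ i) (h : FK μ K u) (h' : FK μ L v) :
    FK μ (K + L) (fun i => u i * v i) :=
  ⟨fun i => (h.sm i).mul (h'.sm i), fun i => per_mul (h.per i) (h'.per i),
    fun n => (h.bd n).mul hμ h.sm h'.sm (h'.bd n)⟩

theorem FK.cst (hμ : ∀ i, 1 ≤ μ i) {c : ι → ℝ} {C : ℝ} (hc : ∀ i, |c i| ≤ C * μ i ^ K) :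
    FK μ K (fun i _ => c i) :=
  ⟨fun _ => contDiff_const, fun i => per_const (c i), fun _ => Fn.const hμ hc⟩

theorem FK.const (hμ : ∀ i, 1 ≤ μ i) (c : ℝ) : FK μ 0 (fun _ _ => c) :=
  FK.cst hμ (c := fun _ => c) (C := |c|) fun i => by simp

theorem FK.zero (hμ : ∀ i, 1 ≤ μ i) : FK μ K (fun _ => 0) :=
  (FK.const hμ 0).mono hμ (Nat.zero_le K)

theorem FK.const_mul (hμ : ∀ i, 1 ≤ μ i) (c : ℝ) (h : FK μ K u) :
    FK μ K (fun i p => c * u i p) := by
  have h1 := (FK.const (μ := μ) hμ c).mul hμ h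
  rw [zero_add] at h1
  exact h1.congr fun i p => rfl

theorem FK.D (h : FK μ K u) (j : Fin 3) : FK μ (K + 1) (fun i => WK.D j (u i)) :=
  ⟨fun i => smooth_D j (h.sm i), fun i => per_D j (h.sm i) (h.per i),
    fun n => (h.bd (n + 1)).D j⟩

theorem FK.pr (h : FK μ K u) : FK μ K (fun i => WK.pr (u i)) := by
  refine ⟨fun i => smooth_pr (h.sm i), fun i => per_pr (h.per i), fun n => ?_⟩
  refine Fn.Av (B := 1) smooth_kp (fun s hs => ?_) zero_le_one h.sm (h.bd n)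
  unfold kp
  have hπ := Real.pi_pos
  rw [abs_mul, abs_of_pos (by positivity : (0 : ℝ) < (2 * π)⁻¹), inv_mul_le_iff₀ (by positivity),
    abs_le]
  constructor <;> linarith [hs.1, hs.2]

theorem FK.mn (h : FK μ K u) : FK μ K (fun i => WK.mn (u i)) := by
  refine ⟨fun i => smooth_mn (h.sm i) (h.per i), fun i => per_mn (u i), fun n => ?_⟩
  refine (Fn.Av (B := (2 * π)⁻¹) (k := fun _ => (2 * π)⁻¹) contDiff_const (fun s _ => ?_)
    (by positivity) h.sm (h.bd n)).congr fun i p => ?_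
  · rw [abs_of_nonneg (by positivity)]
  · rw [mn_eq (h.per i)]

theorem FK.J (hμ : ∀ i, 1 ≤ μ i) (h : FK μ K u) : FK μ K (fun i => WK.J (u i)) :=
  ⟨fun i => smooth_J (h.sm i), fun i => per_J (h.per i), fun n => (h.bd n).J hμ h.sm⟩

theorem FK.sum (hμ : ∀ i, 1 ≤ μ i) {α : Type*} {A : Finset α} {u : α → ι → Q → ℝ}
    (h : ∀ a ∈ A, FK μ K (u a)) : FK μ K (fun i => ∑ a ∈ A, u a i) := by
  classical
  induction A using Finset.induction_on with
  | empty => exact (FK.zero hμ).congr fun i p => by simp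
  | insert a A ha ih =>
    refine ((h a (Finset.mem_insert_self a A)).add hμ
      (ih fun b hb => h b (Finset.mem_insert_of_mem hb))).congr fun i p => ?_
    rw [Finset.sum_insert ha]

theorem FK.boot (hμ : ∀ i, 1 ≤ μ i) (hs : ∀ i, ContDiff ℝ ∞ (u i)) (hp : ∀ i, Per (u i))
    (h0 : Fn μ 0 K u)
    (h : ∀ n, Fn μ n K u → ∀ j, Fn μ n (K + 1) (fun i => WK.D j (u i))) : FK μ K u :=
  ⟨hs, hp, Fn.boot hμ h0 h⟩

/-- smooth functions of bounded members of `FK μ 0` -/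
theorem FK.comp (hμ : ∀ i, 1 ≤ μ i) {F : ℝ → ℝ} (hF : ContDiff ℝ ∞ F) (h : FK μ 0 u) {B : ℝ}
    (hB : ∀ i p, |u i p| ≤ B) : FK μ 0 (fun i p => F (u i p)) := by
  refine ⟨fun i => hF.comp (h.sm i), fun i => per_comp F (h.per i), fun n => ?_⟩
  induction n generalizing F with
  | zero =>
    rw [Fn.zero_iff]
    obtain ⟨M, hM⟩ := isCompact_Icc.exists_bound_of_continuousOn (s := Icc (-B) B)
      (f := F) hF.continuous.continuousOn
    refine ⟨|M|, 0, abs_nonneg M, fun i p => ?_⟩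
    simp only [pow_zero, mul_one]
    exact (hM _ (abs_le.1 (hB i p))).trans (le_abs_self M)
  | succ n ih =>
    refine Fn.succ hμ ((ih hF).mono_n (Nat.zero_le n)) fun j => ?_
    have hF' : ContDiff ℝ ∞ (deriv F) := (contDiff_infty_iff_deriv.1 hF).2
    have h1 := (ih hF').mul hμ (fun i => hF'.comp (h.sm i)) (fun i => smooth_D j (h.sm i))
      ((h.D j).bd n)
    refine (h1.mono_K hμ (by simp)).congr fun i p => ?_
    rw [D_comp j (h.sm i) (hF.differentiable (by norm_num) _)]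
    rfl

theorem smooth_inv {f : Q → ℝ} (hf : ContDiff ℝ ∞ f) (h0 : ∀ p, f p ≠ 0) :
    ContDiff ℝ ∞ (fun p => (f p)⁻¹) := hf.inv h0

theorem D_inv {f : Q → ℝ} (j : Fin 3) (hf : ContDiff ℝ ∞ f) (h0 : ∀ p, f p ≠ 0) (p : Q) :
    WK.D j (fun p => (f p)⁻¹) p = -(WK.D j f p * (f p)⁻¹ * (f p)⁻¹) := by
  have h := D_comp j (F := fun x => x⁻¹) hf (p := p) (differentiableAt_inv (h0 p))
  rw [h, deriv_inv]
  have := h0 p
  field_simp

theorem D_sqrt {f : Q → ℝ} (j : Fin 3) (hf : ContDiff ℝ ∞ f) (h0 : ∀ p, 0 < f p) (p : Q) :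
    WK.D j (fun p => √(f p)) p = WK.D j f p * (2 * √(f p))⁻¹ := by
  have hd : HasDerivAt (fun x : ℝ => √x) (1 / (2 * √(f p))) (f p) :=
    Real.hasDerivAt_sqrt (h0 p).ne'
  have h := D_comp j (F := fun x => √x) hf (p := p) hd.differentiableAt
  rw [h, hd.deriv]
  ring

theorem D_exp {f : Q → ℝ} (j : Fin 3) (hf : ContDiff ℝ ∞ f) (p : Q) :
    WK.D j (fun p => Real.exp (f p)) p = WK.D j f p * Real.exp (f p) := by
  have h := D_comp j (F := Real.exp) hf (p := p) Real.differentiableAt_exp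
  rw [h, Real.deriv_exp]
  ring

theorem D_log {f : Q → ℝ} (j : Fin 3) (hf : ContDiff ℝ ∞ f) (h0 : ∀ p, 0 < f p) (p : Q) :
    WK.D j (fun p => Real.log (f p)) p = WK.D j f p / f p := by
  have h := D_comp j (F := Real.log) hf (p := p) (Real.differentiableAt_log (h0 p).ne')
  rw [h, Real.deriv_log]
  ring

/-- inverses of members of `FK μ 0` that are bounded below -/
theorem FK.inv (hμ : ∀ i, 1 ≤ μ i) (h : FK μ 0 u) {c : ℝ} (hc : 0 < c)
    (hb : ∀ i p, c ≤ |u i p|) : FK μ 0 (fun i p => (u i p)⁻¹) := by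
  have h0 : ∀ i p, u i p ≠ 0 := fun i p hz => by
    have := hb i p
    rw [hz, abs_zero] at this
    exact absurd (hc.trans_le this) (lt_irrefl 0)
  have hsm : ∀ i, ContDiff ℝ ∞ (fun p => (u i p)⁻¹) := fun i => (h.sm i).inv (h0 i)
  refine FK.boot hμ hsm (fun i => per_comp (fun x => x⁻¹) (h.per i)) ?_ fun n hn j => ?_
  · rw [Fn.zero_iff]
    refine ⟨c⁻¹, 0, by positivity, fun i p => ?_⟩
    simp only [pow_zero, mul_one, abs_inv]
    exact inv_anti₀ hc (hb i p)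
  · have h1 := (((h.D j).bd n).mul hμ (fun i => smooth_D j (h.sm i)) hsm hn).mul hμ
      (fun i => (smooth_D j (h.sm i)).mul (hsm i)) hsm hn
    refine h1.neg.congr fun i p => ?_
    rw [D_inv j (h.sm i) (h0 i)]
    rfl

/-- square roots -/
theorem FK.sqrt (hμ : ∀ i, 1 ≤ μ i) (h : FK μ 0 u) {c : ℝ} (hc : 0 < c)
    (hb : ∀ i p, c ≤ u i p) : FK μ 0 (fun i p => √(u i p)) := by
  have h0 : ∀ i p, 0 < u i p := fun i p => hc.trans_le (hb i p)
  have hsq : ∀ i, ContDiff ℝ ∞ (fun p => √(u i p)) := fun i => (h.sm i).sqrt fun p => (h0 i p).ne'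
  have hr : ∀ i p, √(u i p) ≠ 0 := fun i p => (Real.sqrt_pos.2 (h0 i p)).ne'
  have hsm : ∀ i, ContDiff ℝ ∞ (fun p => (√(u i p))⁻¹) := fun i => (hsq i).inv (hr i)
  have key : FK μ 0 (fun i p => (√(u i p))⁻¹) := by
    refine FK.boot hμ hsm (fun i => per_comp (fun x => (√x)⁻¹) (h.per i)) ?_ fun n hn j => ?_
    · rw [Fn.zero_iff]
      refine ⟨(√c)⁻¹, 0, by positivity, fun i p => ?_⟩
      simp only [pow_zero, mul_one]
      rw [abs_of_nonneg (inv_nonneg.2 (Real.sqrt_nonneg _))]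
      exact inv_anti₀ (Real.sqrt_pos.2 hc) (Real.sqrt_le_sqrt (hb i p))
    · have h1 := ((((h.D j).bd n).mul hμ (fun i => smooth_D j (h.sm i)) hsm hn).mul hμ
        (fun i => (smooth_D j (h.sm i)).mul (hsm i)) hsm hn).mul hμ
        (fun i => ((smooth_D j (h.sm i)).mul (hsm i)).mul (hsm i)) hsm hn
      have h2 := (Fn.const (n := n) (K := 0) (μ := μ) hμ (c := fun _ => -(1 / 2 : ℝ))
        (C := 1 / 2) (fun i => by rw [pow_zero, abs_neg]; norm_num [abs_of_pos])).mul hμ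
        (fun _ => contDiff_const)
        (fun i => (((smooth_D j (h.sm i)).mul (hsm i)).mul (hsm i)).mul (hsm i)) h1
      refine (h2.mono_K hμ (by simp)).congr fun i p => ?_
      rw [D_inv j (hsq i) (hr i), D_sqrt j (h.sm i) (h0 i)]
      have := hr i p
      simp only [Pi.mul_apply]
      field_simp
  refine ((h.mul hμ key).congr fun i p => ?_ : FK μ (0 + 0) _)
  simp only [Pi.mul_apply]
  have := hr i p
  rw [mul_inv_eq_iff_eq_mul₀ this, Real.mul_self_sqrt (h0 i p).le]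

theorem D_cos (j : Fin 3) (p : Q) :
    WK.D j (fun p : Q => Real.cos p.2.2) p = if j = 2 then -Real.sin p.2.2 else 0 := by
  have hs : ContDiff ℝ ∞ fun p : Q => p.2.2 := contDiff_snd.comp contDiff_snd
  have h := D_comp j (F := Real.cos) hs (p := p) Real.differentiableAt_cos
  rw [h, Real.deriv_cos]
  have e1 : fderiv ℝ (fun p : Q => p.2.2) p = (ContinuousLinearMap.snd ℝ ℝ ℝ).comp
      (ContinuousLinearMap.snd ℝ ℝ (ℝ × ℝ)) :=
    ((ContinuousLinearMap.snd ℝ ℝ ℝ).comp (ContinuousLinearMap.snd ℝ ℝ (ℝ × ℝ))).hasFDerivAt.fderiv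
  unfold WK.D
  rw [e1]
  fin_cases j <;> simp [e, g]

theorem D_sin (j : Fin 3) (p : Q) :
    WK.D j (fun p : Q => Real.sin p.2.2) p = if j = 2 then Real.cos p.2.2 else 0 := by
  have hs : ContDiff ℝ ∞ fun p : Q => p.2.2 := contDiff_snd.comp contDiff_snd
  have h := D_comp j (F := Real.sin) hs (p := p) Real.differentiableAt_sin
  rw [h, Real.deriv_sin]
  have e1 : fderiv ℝ (fun p : Q => p.2.2) p = (ContinuousLinearMap.snd ℝ ℝ ℝ).comp
      (ContinuousLinearMap.snd ℝ ℝ (ℝ × ℝ)) :=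
    ((ContinuousLinearMap.snd ℝ ℝ ℝ).comp (ContinuousLinearMap.snd ℝ ℝ (ℝ × ℝ))).hasFDerivAt.fderiv
  unfold WK.D
  rw [e1]
  fin_cases j <;> simp [e, g]

theorem FK.cos_sin (hμ : ∀ i, 1 ≤ μ i) :
    FK μ 0 (fun _ p => Real.cos p.2.2) ∧ FK μ 0 (fun _ p => Real.sin p.2.2) := by
  have hs : ContDiff ℝ ∞ fun p : Q => p.2.2 := contDiff_snd.comp contDiff_snd
  have key : ∀ n, Fn μ n 0 (fun _ p => Real.cos p.2.2) ∧ Fn μ n 0 (fun _ p => Real.sin p.2.2) := by
    intro n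
    induction n with
    | zero =>
      constructor <;> rw [Fn.zero_iff] <;> refine ⟨1, 0, zero_le_one, fun i p => ?_⟩
      · simpa using Real.abs_cos_le_one p.2.2
      · simpa using Real.abs_sin_le_one p.2.2
    | succ n ih =>
      have h0 : ∀ K, Fn μ n K (fun _ => (0 : Q → ℝ)) := fun K => (FK.zero hμ).bd n
      constructor
      · refine Fn.succ hμ (ih.1.mono_n (Nat.zero_le n)) fun j => ?_
        by_cases hj : j = 2
        · subst hj
          refine (ih.2.neg.mono_K hμ (Nat.zero_le 1)).congr fun i p => ?_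
          rw [D_cos]
          simp
        · refine (h0 1).congr fun i p => ?_
          rw [D_cos, if_neg hj]
          rfl
      · refine Fn.succ hμ (ih.2.mono_n (Nat.zero_le n)) fun j => ?_
        by_cases hj : j = 2
        · subst hj
          refine (ih.1.mono_K hμ (Nat.zero_le 1)).congr fun i p => ?_
          rw [D_sin]
          simp
        · refine (h0 1).congr fun i p => ?_
          rw [D_sin, if_neg hj]
          rfl
  refine ⟨⟨fun _ => Real.contDiff_cos.comp hs, fun _ a b t => Real.cos_add_two_pi t,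
    fun n => (key n).1⟩, ⟨fun _ => Real.contDiff_sin.comp hs,
    fun _ a b t => Real.sin_add_two_pi t, fun n => (key n).2⟩⟩

end FK

/-! ### the coordinates and `om` -/

section coords

variable {μ : ι → ℝ}

/-- the coordinate `x₁ = ξ₁ / √(1 + ξ₁²)` -/
noncomputable def x1 (p : Q) : ℝ := p.1 / √(1 + p.1 ^ 2)

/-- the coordinate `x₂ = ξ₂ / √(1 + ξ₂²)` -/
noncomputable def x2 (p : Q) : ℝ := p.2.1 / √(1 + p.2.1 ^ 2)

theorem sqrt_pos' (a : ℝ) : 0 < √(1 + a ^ 2) := Real.sqrt_pos.2 (by positivity)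

theorem hasDerivAt_coord (a : ℝ) :
    HasDerivAt (fun a : ℝ => a / √(1 + a ^ 2)) (((1 + a ^ 2) * √(1 + a ^ 2))⁻¹) a := by
  have h1 : HasDerivAt (fun a : ℝ => 1 + a ^ 2) (2 * a) a := by
    simpa using (hasDerivAt_pow 2 a).const_add 1
  have h2 := h1.sqrt (by positivity)
  have h3 := (hasDerivAt_id a).div h2 (sqrt_pos' a).ne'
  refine h3.congr_deriv ?_
  have hs := sqrt_pos' a
  have hq : √(1 + a ^ 2) ^ 2 = 1 + a ^ 2 := Real.sq_sqrt (by positivity)
  simp only [id]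
  have h4 : 0 < 1 + a ^ 2 := by positivity
  rw [hq]
  field_simp
  rw [hq]
  ring

theorem smooth_x1 : ContDiff ℝ ∞ x1 := by
  have h : ContDiff ℝ ∞ fun p : Q => 1 + p.1 ^ 2 := contDiff_const.add (contDiff_fst.pow 2)
  exact contDiff_fst.div (h.sqrt fun p => by positivity) fun p => (sqrt_pos' p.1).ne'

theorem smooth_x2 : ContDiff ℝ ∞ x2 := by
  have h0 : ContDiff ℝ ∞ fun p : Q => p.2.1 := contDiff_fst.comp contDiff_snd
  have h : ContDiff ℝ ∞ fun p : Q => 1 + p.2.1 ^ 2 := contDiff_const.add (h0.pow 2)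
  exact h0.div (h.sqrt fun p => by positivity) fun p => (sqrt_pos' p.2.1).ne'

theorem sl_x1 : Sl x1 := fun _ _ _ _ => rfl

theorem sl_x2 : Sl x2 := fun _ _ _ _ => rfl

theorem abs_coord_lt (a : ℝ) : |a / √(1 + a ^ 2)| < 1 := by
  rw [abs_div, abs_of_pos (sqrt_pos' a), div_lt_one (sqrt_pos' a)]
  exact Real.lt_sqrt_of_sq_lt (by rw [sq_abs]; linarith)

theorem abs_x1_lt (p : Q) : |x1 p| < 1 := abs_coord_lt p.1

theorem abs_x2_lt (p : Q) : |x2 p| < 1 := abs_coord_lt p.2.1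

theorem one_sub_coord (a : ℝ) : 1 - (a / √(1 + a ^ 2)) ^ 2 = (1 + a ^ 2)⁻¹ := by
  rw [div_pow, Real.sq_sqrt (by positivity)]
  have : 1 + a ^ 2 ≠ 0 := by positivity
  field_simp
  ring

/-- `1/om = (1-x₁²)(1-x₂²)` -/
theorem inv_om (p : Q) : (om p)⁻¹ = (1 - x1 p ^ 2) * (1 - x2 p ^ 2) := by
  unfold x1 x2
  rw [one_sub_coord, one_sub_coord]
  unfold om
  rw [mul_inv]

theorem fderiv_fst_comp {F : ℝ → ℝ} {a : ℝ} {p : Q} (h : HasDerivAt F a p.1) :
    ∀ v : Q, fderiv ℝ (fun p : Q => F p.1) p v = a * v.1 := by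
  intro v
  have h1 : HasFDerivAt (fun p : Q => F p.1) (a • ContinuousLinearMap.fst ℝ ℝ (ℝ × ℝ)) p :=
    h.comp_hasFDerivAt p (ContinuousLinearMap.fst ℝ ℝ (ℝ × ℝ)).hasFDerivAt
  rw [h1.fderiv]
  rfl

theorem fderiv_snd_comp {F : ℝ → ℝ} {a : ℝ} {p : Q} (h : HasDerivAt F a p.2.1) :
    ∀ v : Q, fderiv ℝ (fun p : Q => F p.2.1) p v = a * v.2.1 := by
  intro v
  have h0 : HasFDerivAt (fun p : Q => p.2.1) ((ContinuousLinearMap.fst ℝ ℝ ℝ).comp
      (ContinuousLinearMap.snd ℝ ℝ (ℝ × ℝ))) p :=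
    ((ContinuousLinearMap.fst ℝ ℝ ℝ).comp (ContinuousLinearMap.snd ℝ ℝ (ℝ × ℝ))).hasFDerivAt
  have h1 := h.comp_hasFDerivAt p h0
  have h2 : HasFDerivAt (fun p : Q => F p.2.1) (a • ((ContinuousLinearMap.fst ℝ ℝ ℝ).comp
      (ContinuousLinearMap.snd ℝ ℝ (ℝ × ℝ)))) p := h1
  rw [h2.fderiv]
  rfl

theorem D_x1 (j : Fin 3) (p : Q) : WK.D j x1 p = if j = 0 then 1 else 0 := by
  unfold WK.D
  have h := fderiv_fst_comp (p := p) (hasDerivAt_coord p.1) (e j)
  change g j p * fderiv ℝ (fun p : Q => p.1 / √(1 + p.1 ^ 2)) p (e j) = _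
  rw [h]
  fin_cases j
  · have h4 : (1 + p.1 ^ 2) * √(1 + p.1 ^ 2) ≠ 0 := by positivity
    change (1 + p.1 ^ 2) * √(1 + p.1 ^ 2) * (((1 + p.1 ^ 2) * √(1 + p.1 ^ 2))⁻¹ * 1) = 1
    rw [mul_one, mul_inv_cancel₀ h4]
  · simp [g, e]
  · simp [g, e]

theorem D_x2 (j : Fin 3) (p : Q) : WK.D j x2 p = if j = 1 then 1 else 0 := by
  unfold WK.D
  have h := fderiv_snd_comp (p := p) (hasDerivAt_coord p.2.1) (e j)
  change g j p * fderiv ℝ (fun p : Q => p.2.1 / √(1 + p.2.1 ^ 2)) p (e j) = _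
  rw [h]
  fin_cases j
  · simp [g, e]
  · have h4 : (1 + p.2.1 ^ 2) * √(1 + p.2.1 ^ 2) ≠ 0 := by positivity
    change (1 + p.2.1 ^ 2) * √(1 + p.2.1 ^ 2)
      * (((1 + p.2.1 ^ 2) * √(1 + p.2.1 ^ 2))⁻¹ * 1) = 1
    rw [mul_one, mul_inv_cancel₀ h4]
  · simp [g, e]

theorem FK.x1 (hμ : ∀ i, 1 ≤ μ i) : FK μ 0 (fun _ : ι => WK.x1) := by
  refine FK.boot hμ (fun _ => smooth_x1) (fun _ => per_of_sl sl_x1) ?_ fun n _ j => ?_
  · rw [Fn.zero_iff]
    exact ⟨1, 0, zero_le_one, fun i p => by simpa using (abs_x1_lt p).le⟩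
  · refine (((FK.const (μ := μ) hμ (if j = 0 then 1 else 0)).bd n).mono_K hμ
      (Nat.zero_le _)).congr fun i p => ?_
    rw [D_x1]

theorem FK.x2 (hμ : ∀ i, 1 ≤ μ i) : FK μ 0 (fun _ : ι => WK.x2) := by
  refine FK.boot hμ (fun _ => smooth_x2) (fun _ => per_of_sl sl_x2) ?_ fun n _ j => ?_
  · rw [Fn.zero_iff]
    exact ⟨1, 0, zero_le_one, fun i p => by simpa using (abs_x2_lt p).le⟩
  · refine (((FK.const (μ := μ) hμ (if j = 1 then 1 else 0)).bd n).mono_K hμ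
      (Nat.zero_le _)).congr fun i p => ?_
    rw [D_x2]

theorem smooth_om : ContDiff ℝ ∞ om :=
  (contDiff_const.add (contDiff_fst.pow 2)).mul
    (contDiff_const.add ((contDiff_fst.comp contDiff_snd).pow 2))

theorem sl_om : Sl om := fun _ _ _ _ => rfl

/-- `1/om` -/
theorem FK.inv_om (hμ : ∀ i, 1 ≤ μ i) : FK μ 0 (fun (_ : ι) p => (om p)⁻¹) := by
  have h1 := (FK.const (μ := μ) hμ 1).sub hμ ((FK.x1 hμ).mul hμ (FK.x1 hμ))
  have h2 := (FK.const (μ := μ) hμ 1).sub hμ ((FK.x2 hμ).mul hμ (FK.x2 hμ))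
  refine (h1.mul hμ h2).congr fun i p => ?_
  rw [WK.inv_om]
  simp only [Pi.mul_apply, Pi.sub_apply]
  ring

/-- `om` itself -/
theorem FK.om (hμ : ∀ i, 1 ≤ μ i) : FK μ 0 (fun _ : ι => WK.om) := by
  have hpos : ∀ p : Q, (WK.om p)⁻¹ ≠ 0 := fun p => inv_ne_zero (om_pos p).ne'
  have h := FK.inv_om (ι := ι) (μ := μ) hμ
  refine FK.boot hμ (fun _ => smooth_om) (fun _ => per_of_sl sl_om) ?_ fun n hn j => ?_
  · rw [Fn.zero_iff]
    refine ⟨1, 1, zero_le_one, fun i p => ?_⟩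
    rw [abs_of_pos (om_pos p)]
    simp
  · have h1 := (((h.D j).bd n).mul hμ (h.D j).sm (fun _ => smooth_om) hn).mul hμ
      (fun i => ((h.D j).sm i).mul smooth_om) (fun _ => smooth_om) hn
    refine h1.neg.congr fun i p => ?_
    have h2 := D_inv j (h.sm i) hpos p
    simp only [inv_inv] at h2
    rw [h2]
    rfl

end coords

/-! ### logarithmically tame families -/

/-- positive and logarithmically tame -/
structure U (μ : ι → ℝ) (u : ι → Q → ℝ) : Prop where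
  sm : ∀ i, ContDiff ℝ ∞ (u i)
  per : ∀ i, Per (u i)
  pos : ∀ i p, 0 < u i p
  ld : ∀ j, FK μ 1 (fun i p => WK.D j (u i) p / u i p)

section U

variable {μ : ι → ℝ} {K L : ℕ} {u v : ι → Q → ℝ}

theorem U.congr (h : U μ u) (e : ∀ i p, u i p = v i p) : U μ v := by
  have e1 : u = v := funext fun i => funext fun p => e i p
  rwa [e1] at h

/-- products of members of `U` with members of `FK` -/
theorem U.D_eq (h : U μ u) (j : Fin 3) (i : ι) (p : Q) :
    WK.D j (u i) p = (WK.D j (u i) p / u i p) * u i p :=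
  (div_mul_cancel₀ _ (h.pos i p).ne').symm

/-- bounded members of `U` are in `FK` -/
theorem U.fk (hμ : ∀ i, 1 ≤ μ i) (h : U μ u) (h0 : Fn μ 0 K u) : FK μ K u := by
  refine FK.boot hμ h.sm h.per h0 fun n hn j => ?_
  have h1 := ((h.ld j).bd n).mul hμ (h.ld j).sm h.sm hn
  rw [add_comm 1 K] at h1
  refine h1.congr fun i p => ?_
  rw [h.D_eq j i p]
  rfl

theorem U.mul (hμ : ∀ i, 1 ≤ μ i) (h : U μ u) (h' : U μ v) : U μ (fun i => u i * v i) := by
  refine ⟨fun i => (h.sm i).mul (h'.sm i), fun i => per_mul (h.per i) (h'.per i),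
    fun i p => mul_pos (h.pos i p) (h'.pos i p), fun j => ?_⟩
  refine ((h.ld j).add hμ (h'.ld j)).congr fun i p => ?_
  rw [D_mul j (h.sm i) (h'.sm i)]
  simp only [Pi.add_apply, Pi.mul_apply]
  have h1 := (h.pos i p).ne'
  have h2 := (h'.pos i p).ne'
  field_simp

theorem U.inv (h : U μ u) : U μ (fun i p => (u i p)⁻¹) := by
  refine ⟨fun i => (h.sm i).inv fun p => (h.pos i p).ne',
    fun i => per_comp (fun x => x⁻¹) (h.per i), fun i p => inv_pos.2 (h.pos i p), fun j => ?_⟩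
  refine (h.ld j).neg.congr fun i p => ?_
  rw [D_inv j (h.sm i) (fun p => (h.pos i p).ne')]
  simp only [Pi.neg_apply]
  have h1 := (h.pos i p).ne'
  field_simp

theorem U.div (hμ : ∀ i, 1 ≤ μ i) (h : U μ u) (h' : U μ v) :
    U μ (fun i p => u i p / v i p) :=
  (h.mul hμ h'.inv).congr fun _ _ => (div_eq_mul_inv _ _).symm

theorem U.sqrt (hμ : ∀ i, 1 ≤ μ i) (h : U μ u) : U μ (fun i p => √(u i p)) := by
  refine ⟨fun i => (h.sm i).sqrt fun p => (h.pos i p).ne',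
    fun i => per_comp (fun x => √x) (h.per i), fun i p => Real.sqrt_pos.2 (h.pos i p),
    fun j => ?_⟩
  refine ((h.ld j).const_mul hμ (1 / 2)).congr fun i p => ?_
  rw [D_sqrt j (h.sm i) (h.pos i)]
  have h1 := (h.pos i p).ne'
  have h2 := (Real.sqrt_pos.2 (h.pos i p)).ne'
  have h3 := Real.mul_self_sqrt (h.pos i p).le
  rw [div_eq_mul_inv, div_eq_mul_inv, mul_inv]
  have h4 : (u i p)⁻¹ = (√(u i p))⁻¹ * (√(u i p))⁻¹ := by
    rw [← mul_inv, h3]
  rw [h4]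
  ring

theorem U.pow (hμ : ∀ i, 1 ≤ μ i) (h : U μ u) (n : ℕ) : U μ (fun i p => u i p ^ n) := by
  induction n with
  | zero =>
    refine ⟨fun i => by simpa using contDiff_const, fun i => by
      simpa using per_const 1, fun i p => by simp, fun j => ?_⟩
    refine (FK.zero hμ).congr fun i p => ?_
    have : (fun p => u i p ^ 0) = fun _ => (1 : ℝ) := by
      funext q
      exact pow_zero _
    rw [this, D_const]
    simp
  | succ n ih => exact (ih.mul hμ h).congr fun i p => (pow_succ _ _).symm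

theorem U.cst (hμ : ∀ i, 1 ≤ μ i) {c : ι → ℝ} (hc : ∀ i, 0 < c i) : U μ (fun i _ => c i) := by
  refine ⟨fun _ => contDiff_const, fun i => per_const (c i), fun i _ => hc i, fun j => ?_⟩
  refine (FK.zero hμ).congr fun i p => ?_
  rw [D_const]
  simp

/-- exponentials of members of `FK μ 0` -/
theorem U.exp (hμ : ∀ i, 1 ≤ μ i) (h : FK μ 0 u) : U μ (fun i p => Real.exp (u i p)) := by
  refine ⟨fun i => (h.sm i).exp, fun i => per_comp Real.exp (h.per i),
    fun i p => Real.exp_pos _, fun j => ?_⟩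
  refine ((h.D j).mono hμ (by simp)).congr fun i p => ?_
  rw [D_exp j (h.sm i), mul_div_cancel_right₀ _ (Real.exp_pos _).ne']

/-- members of `FK μ 0` that are bounded below by a positive constant -/
theorem U.of_fk (hμ : ∀ i, 1 ≤ μ i) (h : FK μ 0 u) {c : ℝ} (hc : 0 < c)
    (hb : ∀ i p, c ≤ u i p) : U μ u := by
  have hpos : ∀ i p, 0 < u i p := fun i p => hc.trans_le (hb i p)
  refine ⟨h.sm, h.per, hpos, fun j => ?_⟩
  have h1 := (h.D j).mul hμ (h.inv hμ hc fun i p => (hb i p).trans (le_abs_self _))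
  exact h1.congr fun i p => (div_eq_mul_inv _ _).symm

theorem U.add (hμ : ∀ i, 1 ≤ μ i) (h : U μ u) (h' : U μ v) : U μ (fun i => u i + v i) := by
  have hs : ∀ i, ContDiff ℝ ∞ (u i + v i) := fun i => (h.sm i).add (h'.sm i)
  have hpos : ∀ i p, 0 < (u i + v i) p := fun i p => add_pos (h.pos i p) (h'.pos i p)
  -- the ratio `u / (u + v)`
  have hrs : ∀ i, ContDiff ℝ ∞ (fun p => u i p * ((u i + v i) p)⁻¹) := fun i =>
    (h.sm i).mul ((hs i).inv fun p => (hpos i p).ne')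
  have hdl := fun j => (h.ld j).sub hμ (h'.ld j)
  have hr : FK μ 0 (fun i p => u i p * ((u i + v i) p)⁻¹) := by
    refine FK.boot hμ hrs (fun i => per_mul (h.per i)
      (per_comp (fun x => x⁻¹) (per_add (h.per i) (h'.per i)))) ?_ fun n hn j => ?_
    · rw [Fn.zero_iff]
      refine ⟨1, 0, zero_le_one, fun i p => ?_⟩
      have h1 := h.pos i p
      have h2 := h'.pos i p
      have h3 := hpos i p
      rw [abs_of_nonneg (mul_nonneg h1.le (inv_nonneg.2 h3.le)), pow_zero, pow_zero, mul_one,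
        mul_one, mul_inv_le_iff₀ h3, one_mul]
      simp only [Pi.add_apply]
      linarith
    · have hone : Fn μ n 0 (fun (_ : ι) (_ : Q) => (1 : ℝ)) := (FK.const hμ 1).bd n
      have h1r := hone.add hμ (fun _ => contDiff_const) (fun i => (hrs i).neg) hn.neg
      have h2 := (((hdl j).bd n).mul hμ (hdl j).sm hrs hn).mul hμ
        (fun i => ((hdl j).sm i).mul (hrs i)) (fun i => contDiff_const.add (hrs i).neg) h1r
      refine (h2.mono_K hμ (by simp)).congr fun i p => ?_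
      have e0 : (fun p => u i p * ((u i + v i) p)⁻¹)
          = u i * fun p => ((u i + v i) p)⁻¹ := rfl
      rw [e0, D_mul (v := fun p => ((u i + v i) p)⁻¹) j (h.sm i)
        ((hs i).inv fun p => (hpos i p).ne')]
      simp only [Pi.add_apply, Pi.mul_apply, Pi.sub_apply]
      have e1 := D_inv j (hs i) (fun p => (hpos i p).ne') p
      simp only [Pi.add_apply] at e1
      rw [e1, D_add j (h.sm i) (h'.sm i)]
      have h3 := (h.pos i p).ne'
      have h4 := (h'.pos i p).ne'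
      have h5 : u i p + v i p ≠ 0 := (hpos i p).ne'
      simp only [Pi.add_apply]
      field_simp
      ring
  refine ⟨hs, fun i => per_add (h.per i) (h'.per i), hpos, fun j => ?_⟩
  have h1 := (h'.ld j).add hμ ((hdl j).mul hμ hr)
  refine (h1 : FK μ 1 _).congr fun i p => ?_
  rw [D_add j (h.sm i) (h'.sm i)]
  simp only [Pi.add_apply, Pi.mul_apply, Pi.sub_apply]
  have h3 := (h.pos i p).ne'
  have h4 := (h'.pos i p).ne'
  have h5 : u i p + v i p ≠ 0 := (hpos i p).ne'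
  field_simp
  ring

end U

/-! ### the subalgebra of all classes -/

/-- the union of the classes `FK μ K` -/
def FF (μ : ι → ℝ) (hμ : ∀ i, 1 ≤ μ i) : Subalgebra ℝ (ι → Q → ℝ) where
  carrier := {u | ∃ K, FK μ K u}
  mul_mem' := by
    rintro u v ⟨K, hu⟩ ⟨L, hv⟩
    exact ⟨K + L, hu.mul hμ hv⟩
  add_mem' := by
    rintro u v ⟨K, hu⟩ ⟨L, hv⟩
    exact ⟨K + L, (hu.mono hμ (Nat.le_add_right K L)).add hμ (hv.mono hμ (Nat.le_add_left L K))⟩
  algebraMap_mem' := fun r => ⟨0, FK.const hμ r⟩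

section FF

variable {μ : ι → ℝ} {hμ : ∀ i, 1 ≤ μ i}

theorem mem_FF {u : ι → Q → ℝ} : u ∈ FF μ hμ ↔ ∃ K, FK μ K u := Iff.rfl

/-- derivation on `FF` -/
noncomputable def FF.D (j : Fin 3) (u : FF μ hμ) : FF μ hμ :=
  ⟨fun i => WK.D j (u.1 i), let ⟨K, h⟩ := u.2; ⟨K + 1, h.D j⟩⟩

/-- mean on `FF` -/
noncomputable def FF.mn (u : FF μ hμ) : FF μ hμ :=
  ⟨fun i => WK.mn (u.1 i), let ⟨K, h⟩ := u.2; ⟨K, h.mn⟩⟩

/-- primitive on `FF` -/
noncomputable def FF.pr (u : FF μ hμ) : FF μ hμ :=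
  ⟨fun i => WK.pr (u.1 i), let ⟨K, h⟩ := u.2; ⟨K, h.pr⟩⟩

/-- `∫ dx₂` on `FF` -/
noncomputable def FF.J (u : FF μ hμ) : FF μ hμ :=
  ⟨fun i => WK.J (u.1 i), let ⟨K, h⟩ := u.2; ⟨K, h.J hμ⟩⟩

theorem FF.sm (u : FF μ hμ) (i : ι) : ContDiff ℝ ∞ (u.1 i) := let ⟨_, h⟩ := u.2; h.sm i

theorem FF.per (u : FF μ hμ) (i : ι) : Per (u.1 i) := let ⟨_, h⟩ := u.2; h.per i

theorem FF.D_add (j : Fin 3) (u v : FF μ hμ) : FF.D j (u + v) = FF.D j u + FF.D j v :=
  Subtype.ext (funext fun i => WK.D_add j (FF.sm u i) (FF.sm v i))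

theorem FF.D_mul (j : Fin 3) (u v : FF μ hμ) :
    FF.D j (u * v) = FF.D j u * v + u * FF.D j v :=
  Subtype.ext (funext fun i => WK.D_mul j (FF.sm u i) (FF.sm v i))

theorem FF.D_comm (i j : Fin 3) (u : FF μ hμ) : FF.D i (FF.D j u) = FF.D j (FF.D i u) :=
  Subtype.ext (funext fun k => WK.D_comm i j (FF.sm u k))

theorem FF.D_mn (j : Fin 3) (u : FF μ hμ) : FF.D j (FF.mn u) = FF.mn (FF.D j u) :=
  Subtype.ext (funext fun k => WK.D_mn j (FF.sm u k) (FF.per u k))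

theorem FF.D_pr (j : Fin 3) (u : FF μ hμ) : FF.D j (FF.pr u) = FF.pr (FF.D j u) :=
  Subtype.ext (funext fun k => WK.D_pr j (FF.sm u k))

theorem FF.D_J {j : Fin 3} (hj : j ≠ 1) (u : FF μ hμ) : FF.D j (FF.J u) = FF.J (FF.D j u) :=
  Subtype.ext (funext fun k => WK.D_J hj (FF.sm u k))

theorem FF.D1_J (u : FF μ hμ) : FF.D 1 (FF.J u) = u :=
  Subtype.ext (funext fun k => WK.D1_J (FF.sm u k))

theorem FF.D2_pr (u : FF μ hμ) : FF.D 2 (FF.pr u) = u - FF.mn u :=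
  Subtype.ext (funext fun k => WK.D2_pr (FF.sm u k) (FF.per u k))

theorem FF.mn_D2 (u : FF μ hμ) : FF.mn (FF.D 2 u) = 0 :=
  Subtype.ext (funext fun k => WK.mn_D2 (FF.sm u k) (FF.per u k))

theorem FF.mn_pr (u : FF μ hμ) : FF.mn (FF.pr u) = 0 :=
  Subtype.ext (funext fun k => WK.mn_pr (FF.sm u k) (FF.per u k))

theorem FF.pr_mn (u : FF μ hμ) : FF.pr (FF.mn u) = 0 :=
  Subtype.ext (funext fun k => WK.pr_mn (u.1 k))

theorem FF.mn_mn (u : FF μ hμ) : FF.mn (FF.mn u) = FF.mn u :=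
  Subtype.ext (funext fun k => WK.mn_mn (u.1 k))

theorem FF.mn_add (u v : FF μ hμ) : FF.mn (u + v) = FF.mn u + FF.mn v :=
  Subtype.ext (funext fun k => WK.mn_add (FF.sm u k) (FF.sm v k) (FF.per u k) (FF.per v k))

theorem FF.pr_add (u v : FF μ hμ) : FF.pr (u + v) = FF.pr u + FF.pr v :=
  Subtype.ext (funext fun k => WK.pr_add (FF.sm u k) (FF.sm v k))

theorem FF.J_add (u v : FF μ hμ) : FF.J (u + v) = FF.J u + FF.J v :=
  Subtype.ext (funext fun k => WK.J_add (FF.sm u k) (FF.sm v k))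

/-- `mn (mn v * u) = mn v * mn u` -/
theorem FF.mn_mn_mul (v u : FF μ hμ) : FF.mn (FF.mn v * u) = FF.mn v * FF.mn u :=
  Subtype.ext (funext fun k => WK.mn_slow_mul (sl_mn (v.1 k)) (u.1 k))

theorem FF.pr_mn_mul (v u : FF μ hμ) : FF.pr (FF.mn v * u) = FF.mn v * FF.pr u :=
  Subtype.ext (funext fun k => WK.pr_slow_mul (sl_mn (v.1 k)) (u.1 k))

theorem FF.J_mn (u : FF μ hμ) : FF.mn (FF.J (FF.mn u)) = FF.J (FF.mn u) :=
  Subtype.ext (funext fun k => mn_of_sl (sl_J (sl_mn (u.1 k))))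

theorem FF.D2_mn (u : FF μ hμ) : FF.D 2 (FF.mn u) = 0 :=
  Subtype.ext (funext fun k => D2_of_sl (smooth_mn (FF.sm u k) (FF.per u k)) (sl_mn (u.1 k)))

end FF

end Vale.Agent.P205.WK
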