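import Vale.Agent.P205.WK.Base

/-!
The local piece lemma, formal part: all orders.
-/

namespace Vale.Agent.P205.WK

open FS

variable {R : Type*} [CommRing R] [Algebra ℝ R]

/-- data of a piece -/
structure Dat (S : FS R) where
  /-- amplitude -/
  a : R
  /-- log derivative -/
  l1 : R
  /-- log derivative -/
  l2 : R
  /-- inverse frequency -/
  ep : R
  /-- the map -/
  X : Fin 4 → R
  /-- central direction -/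
  q1 : Fin 4 → R
  /-- second direction -/
  q2 : Fin 4 → R
  /-- coefficient -/
  c1 : R
  /-- coefficient -/
  c2 : R
  /-- length of `p` -/
  P : R
  /-- inverse Gram -/
  g11 : R
  /-- inverse Gram -/
  g12 : R
  /-- inverse Gram -/
  g22 : R
  /-- inverse of `P² + a²` -/
  ri : R
  /-- loop -/
  e1 : R
  /-- loop -/
  e2 : R
  /-- `mean e2² = a² Ga` -/
  Ga : R
  /-- inverse of `Ga` -/
  Gi : R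
  /-- inverse of `mean e1²` -/
  Gb : R
  A : S.Amp a l1 l2
  sep : S.Sl ep
  ep1 : S.D1 ep = 0
  ep2 : S.D2 ep = 0
  sX : ∀ i, S.Sl (X i)
  sq1 : ∀ i, S.Sl (q1 i)
  sq2 : ∀ i, S.Sl (q2 i)
  sc1 : S.Sl c1
  sc2 : S.Sl c2
  sP : S.Sl P
  sg11 : S.Sl g11
  sg12 : S.Sl g12
  sg22 : S.Sl g22
  sri : S.Sl ri
  sGi : S.Sl Gi
  sGb : S.Sl Gb
  q11 : q1 ⬝ᵥ q1 = 1
  q12 : q1 ⬝ᵥ q2 = 0
  q22 : q2 ⬝ᵥ q2 = 1
  q1X : q1 ⬝ᵥ S.v2 X = 0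
  q1N : q1 ⬝ᵥ S.v2 (S.v2 X) = 0
  q2X : q2 ⬝ᵥ S.v2 X = 0
  q2N : q2 ⬝ᵥ S.v2 (S.v2 X) = 0
  hX1 : S.v1 X = c1 • S.v2 X + c2 • S.v2 (S.v2 X) + P • q1
  gr1 : g11 * (S.v2 X ⬝ᵥ S.v2 X) + g12 * (S.v2 X ⬝ᵥ S.v2 (S.v2 X)) = 1
  gr2 : g12 * (S.v2 X ⬝ᵥ S.v2 X) + g22 * (S.v2 X ⬝ᵥ S.v2 (S.v2 X)) = 0
  gr3 : g11 * (S.v2 X ⬝ᵥ S.v2 (S.v2 X)) + g12 * (S.v2 (S.v2 X) ⬝ᵥ S.v2 (S.v2 X)) = 0
  gr4 : g12 * (S.v2 X ⬝ᵥ S.v2 (S.v2 X)) + g22 * (S.v2 (S.v2 X) ⬝ᵥ S.v2 (S.v2 X)) = 1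
  hri : (P ^ 2 + a ^ 2) * ri = 1
  he : e1 ^ 2 + e2 ^ 2 = P ^ 2 + a ^ 2
  me1 : ∃ w, S.mn w = 0 ∧ e1 = P + a * w
  me2 : ∃ w, S.mn w = 0 ∧ e2 = a * w
  me12 : S.mn (e1 * e2) = 0
  me22 : S.mn (e2 ^ 2) = a ^ 2 * Ga
  hGi : Ga * Gi = 1
  me11 : S.mn (e1 ^ 2) * Gb = 1

namespace Dat

variable {S : FS R} (d : Dat S)

/-- `X_2` -/
def X2 : Fin 4 → R := S.v2 d.X
/-- `X_22` -/
def N : Fin 4 → R := S.v2 (S.v2 d.X)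
/-- `X_1` -/
def X1 : Fin 4 → R := S.v1 d.X
/-- leading corrugation -/
def V0 : Fin 4 → R := S.pr (d.e1 - d.P) • d.q1 + S.pr d.e2 • d.q2
/-- corrugation -/
def V (U : Fin 4 → R) : Fin 4 → R := d.V0 + d.ep • U
/-- `∂_1 Y` -/
def Z (U : Fin 4 → R) (h : R) : Fin 4 → R :=
  d.X1 + S.vt (d.V U) + d.ep • (S.v1 (d.V U) + S.D1 h • S.vt (d.V U))
/-- `∂_2 Y` -/
def W (U : Fin 4 → R) (h : R) : Fin 4 → R :=
  d.X2 + d.ep • (S.v2 (d.V U) + S.D2 h • S.vt (d.V U))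

/-- the state at order `n` -/
def St (n : ℕ) (U : Fin 4 → R) (h : R) : Prop :=
  (∀ i, S.Gr d.a (U i)) ∧ S.Sl h ∧ ∃ F11 F12 F22 : R, S.Gr d.a F11 ∧ S.Gr d.a F12 ∧
    S.Gr d.a F22 ∧
    d.Z U h ⬝ᵥ d.Z U h = d.X1 ⬝ᵥ d.X1 + d.a ^ 2 + d.ep ^ (n + 1) * F11 ∧
    d.Z U h ⬝ᵥ d.W U h = d.X1 ⬝ᵥ d.X2 + d.ep ^ (n + 1) * F12 ∧
    d.W U h ⬝ᵥ d.W U h = d.X2 ⬝ᵥ d.X2 + d.ep ^ (n + 2) * F22

lemma sa : S.Sl d.a := d.A.sa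

lemma grE1 : S.Gr d.a (d.e1 - d.P) := by
  obtain ⟨w, hw, h⟩ := d.me1
  rw [h, add_sub_cancel_left]; exact Gr.of_zm hw

lemma grE2 : S.Gr d.a d.e2 := by
  obtain ⟨w, hw, h⟩ := d.me2
  rw [h]; exact Gr.of_zm hw

lemma osE1 : S.Os d.a d.e1 := by
  have := ((d.grE1).os d.sa).add d.sP.os
  rwa [sub_add_cancel] at this

lemma mnE1 : S.mn (d.e1 - d.P) = 0 := by
  obtain ⟨w, hw, h⟩ := d.me1
  rw [h, add_sub_cancel_left, d.sa.mn_mul, hw, mul_zero]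

lemma mnE1' : S.mn d.e1 = d.P := by
  have h := d.mnE1
  rw [map_sub, show S.mn d.P = d.P from d.sP, sub_eq_zero] at h
  exact h

lemma mnE2 : S.mn d.e2 = 0 := by
  obtain ⟨w, hw, h⟩ := d.me2
  rw [h, d.sa.mn_mul, hw, mul_zero]

lemma sX2 (i : Fin 4) : S.Sl (d.X2 i) := (d.sX i).D2
lemma sN (i : Fin 4) : S.Sl (d.N i) := (d.sX i).D2.D2
lemma sX1 (i : Fin 4) : S.Sl (d.X1 i) := (d.sX i).D1

lemma vt_slow {x : Fin 4 → R} (hx : ∀ i, S.Sl (x i)) : S.vt x = 0 := by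
  ext i; exact (hx i).Dt

lemma gr_slow_smul {u : R} {x : Fin 4 → R} (hu : S.Gr d.a u) (hx : ∀ i, S.Sl (x i)) (i : Fin 4) :
    S.Gr d.a ((u • x) i) := by
  show S.Gr d.a (u * x i)
  rw [mul_comm]; exact hu.slmul d.sa (hx i)

lemma sl_smul_gr {u : R} {x : Fin 4 → R} (hu : S.Sl u) (hx : ∀ i, S.Gr d.a (x i)) (i : Fin 4) :
    S.Gr d.a ((u • x) i) := (hx i).slmul d.sa hu

lemma gr_add {x y : Fin 4 → R} (hx : ∀ i, S.Gr d.a (x i)) (hy : ∀ i, S.Gr d.a (y i)) (i : Fin 4) :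
    S.Gr d.a ((x + y) i) := (hx i).add (hy i)

lemma gr_vt {x : Fin 4 → R} (hx : ∀ i, S.Gr d.a (x i)) (i : Fin 4) : S.Gr d.a (S.vt x i) :=
  (hx i).Dt d.sa
lemma gr_v1 {x : Fin 4 → R} (hx : ∀ i, S.Gr d.a (x i)) (i : Fin 4) : S.Gr d.a (S.v1 x i) :=
  (hx i).D1 d.A
lemma gr_v2 {x : Fin 4 → R} (hx : ∀ i, S.Gr d.a (x i)) (i : Fin 4) : S.Gr d.a (S.v2 x i) :=
  (hx i).D2 d.A

lemma grV0 (i : Fin 4) : S.Gr d.a (d.V0 i) :=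
  d.gr_add (d.gr_slow_smul (d.grE1.pr d.sa) d.sq1) (d.gr_slow_smul (d.grE2.pr d.sa) d.sq2) i

lemma grV {U : Fin 4 → R} (hU : ∀ i, S.Gr d.a (U i)) (i : Fin 4) : S.Gr d.a (d.V U i) :=
  d.gr_add d.grV0 (d.sl_smul_gr d.sep hU) i

lemma vtV0 : S.vt d.V0 = (d.e1 - d.P) • d.q1 + d.e2 • d.q2 := by
  rw [V0, vt_add, vt_smul, vt_smul, vt_slow d.sq1, vt_slow d.sq2, S.Dt_pr, S.Dt_pr, d.mnE1, d.mnE2]
  simp

lemma V0X : d.V0 ⬝ᵥ d.X2 = 0 := by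
  rw [V0, add_dotProduct, smul_dotProduct, smul_dotProduct, X2, d.q1X, d.q2X]; simp

lemma V0N : d.V0 ⬝ᵥ d.N = 0 := by
  rw [V0, add_dotProduct, smul_dotProduct, smul_dotProduct, N, d.q1N, d.q2N]; simp

lemma vtV0X : S.vt d.V0 ⬝ᵥ d.X2 = 0 := by
  rw [vtV0, add_dotProduct, smul_dotProduct, smul_dotProduct, X2, d.q1X, d.q2X]; simp

lemma vtV0N : S.vt d.V0 ⬝ᵥ d.N = 0 := by
  rw [vtV0, add_dotProduct, smul_dotProduct, smul_dotProduct, N, d.q1N, d.q2N]; simp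

lemma X2v2V0 : d.X2 ⬝ᵥ S.v2 d.V0 = 0 := by
  have h := S.D2_dot (d.V0) d.X2
  rw [d.V0X, map_zero, show S.v2 d.X2 = d.N from rfl, d.V0N, add_zero, dotProduct_comm] at h
  exact h.symm

/-- leading part of `Z` -/
def Z0 : Fin 4 → R := d.X1 + S.vt d.V0

lemma Z0_eq : d.Z0 = d.c1 • d.X2 + d.c2 • d.N + (d.e1 • d.q1 + d.e2 • d.q2) := by
  rw [Z0, vtV0, X1, d.hX1, X2, N]
  ext i
  simp only [Pi.add_apply, Pi.smul_apply, smul_eq_mul]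
  ring

lemma osZ0 (i : Fin 4) : S.Os d.a (d.Z0 i) :=
  (d.sX1 i).os.add ((d.gr_vt d.grV0 i).os d.sa)

/-- `G0 = r² - P e1` -/
def G0 : R := d.P ^ 2 + d.a ^ 2 - d.P * d.e1

lemma q1X' : d.q1 ⬝ᵥ d.X2 = 0 := d.q1X
lemma q2X' : d.q2 ⬝ᵥ d.X2 = 0 := d.q2X
lemma q1N' : d.q1 ⬝ᵥ d.N = 0 := d.q1N
lemma q2N' : d.q2 ⬝ᵥ d.N = 0 := d.q2N
lemma Xq1 : d.X2 ⬝ᵥ d.q1 = 0 := by rw [dotProduct_comm]; exact d.q1X
lemma Xq2 : d.X2 ⬝ᵥ d.q2 = 0 := by rw [dotProduct_comm]; exact d.q2X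
lemma Nq1 : d.N ⬝ᵥ d.q1 = 0 := by rw [dotProduct_comm]; exact d.q1N
lemma Nq2 : d.N ⬝ᵥ d.q2 = 0 := by rw [dotProduct_comm]; exact d.q2N
lemma q21 : d.q2 ⬝ᵥ d.q1 = 0 := by rw [dotProduct_comm]; exact d.q12

lemma Z0Z0 : d.Z0 ⬝ᵥ d.Z0 = d.X1 ⬝ᵥ d.X1 + d.a ^ 2 := by
  rw [Z0_eq, X1, d.hX1]
  have h1 : S.v2 d.X = d.X2 := rfl
  have h2 : S.v2 d.X2 = d.N := rfl
  rw [h1, h2]
  simp only [add_dotProduct, dotProduct_add, smul_dotProduct, dotProduct_smul, smul_eq_mul,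
    d.q1X', d.q2X', d.q1N', d.q2N', d.Xq1, d.Xq2, d.Nq1, d.Nq2, d.q21, d.q11, d.q12, d.q22]
  linear_combination d.he

lemma Z0vtV0 : d.Z0 ⬝ᵥ S.vt d.V0 = d.G0 := by
  rw [Z0_eq, vtV0, G0]
  simp only [add_dotProduct, dotProduct_add, smul_dotProduct, dotProduct_smul, smul_eq_mul,
    d.q1X', d.q2X', d.q1N', d.q2N', d.Xq1, d.Xq2, d.Nq1, d.Nq2, d.q21, d.q11, d.q12, d.q22]
  linear_combination d.he

lemma Z0X2 : d.Z0 ⬝ᵥ d.X2 = d.X1 ⬝ᵥ d.X2 := by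
  rw [Z0, add_dotProduct, d.vtV0X, add_zero]

lemma grG0 : S.Gr d.a d.G0 := by
  have h : d.G0 = d.a ^ 2 * 1 + -(d.P * (d.e1 - d.P)) := by rw [G0]; ring
  rw [h]
  exact Gr.add ⟨0, 1, map_zero _, sl_one, by ring⟩ (d.grE1.slmul d.sa d.sP).neg

lemma mnG0 : S.mn d.G0 = d.a ^ 2 := by
  rw [G0, map_sub, d.sP.mn_mul, d.mnE1',
    show S.mn (d.P ^ 2 + d.a ^ 2) = _ from (d.sP.pow 2).add (d.sa.pow 2)]
  ring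

/-- the base of the induction -/
theorem st_zero : d.St 0 0 0 := by
  refine ⟨fun i => gr_zero, sl_zero, 2 * (d.Z0 ⬝ᵥ S.v1 d.V0) + d.ep * (S.v1 d.V0 ⬝ᵥ S.v1 d.V0),
    d.Z0 ⬝ᵥ S.v2 d.V0 + S.v1 d.V0 ⬝ᵥ d.X2 + d.ep * (S.v1 d.V0 ⬝ᵥ S.v2 d.V0),
    S.v2 d.V0 ⬝ᵥ S.v2 d.V0, ?_, ?_, ?_, ?_, ?_, ?_⟩
  · have h1 : S.Gr d.a (d.Z0 ⬝ᵥ S.v1 d.V0) := Gr.dot d.sa d.osZ0 (d.gr_v1 d.grV0)
    have h2 : S.Gr d.a (S.v1 d.V0 ⬝ᵥ S.v1 d.V0) :=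
      Gr.dot d.sa (fun i => (d.gr_v1 d.grV0 i).os d.sa) (d.gr_v1 d.grV0)
    rw [two_mul]
    exact (h1.add h1).add (h2.slmul d.sa d.sep)
  · have h1 : S.Gr d.a (d.Z0 ⬝ᵥ S.v2 d.V0) := Gr.dot d.sa d.osZ0 (d.gr_v2 d.grV0)
    have h2 : S.Gr d.a (S.v1 d.V0 ⬝ᵥ S.v2 d.V0) :=
      Gr.dot d.sa (fun i => (d.gr_v1 d.grV0 i).os d.sa) (d.gr_v2 d.grV0)
    have h3 : S.Gr d.a (S.v1 d.V0 ⬝ᵥ d.X2) := by
      rw [dotProduct_comm]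
      exact Gr.dot d.sa (fun i => (d.sX2 i).os) (d.gr_v1 d.grV0)
    exact (h1.add h3).add (h2.slmul d.sa d.sep)
  · exact Gr.dot d.sa (fun i => (d.gr_v2 d.grV0 i).os d.sa) (d.gr_v2 d.grV0)
  · have hV : d.V 0 = d.V0 := by simp [V]
    have hZ : d.Z 0 0 = d.Z0 + d.ep • S.v1 d.V0 := by
      simp [Z, hV, Z0]
    rw [hZ]
    simp only [add_dotProduct, dotProduct_add, smul_dotProduct, dotProduct_smul, smul_eq_mul,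
      dotProduct_comm (S.v1 d.V0) d.Z0]
    linear_combination d.Z0Z0
  · have hV : d.V 0 = d.V0 := by simp [V]
    have hZ : d.Z 0 0 = d.Z0 + d.ep • S.v1 d.V0 := by
      simp [Z, hV, Z0]
    have hW : d.W 0 0 = d.X2 + d.ep • S.v2 d.V0 := by
      simp [W, hV]
    rw [hZ, hW]
    simp only [add_dotProduct, dotProduct_add, smul_dotProduct, dotProduct_smul, smul_eq_mul]
    linear_combination d.Z0X2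
  · have hV : d.V 0 = d.V0 := by simp [V]
    have hW : d.W 0 0 = d.X2 + d.ep • S.v2 d.V0 := by
      simp [W, hV]
    rw [hW]
    simp only [add_dotProduct, dotProduct_add, smul_dotProduct, dotProduct_smul, smul_eq_mul,
      dotProduct_comm (S.v2 d.V0) d.X2]
    linear_combination (2 * d.ep) * d.X2v2V0

end Dat

end Vale.Agent.P205.WK
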