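import Mathlib

/-!
The function ring for the local piece lemma (P205, full question).

Points `(ξ₁, ξ₂, θ)`; the open square is parametrised by `x = ξ / √(1 + ξ²)`, so that
`∂/∂x_j = (1 + ξ_j²)^{3/2} ∂/∂ξ_j`.
-/

open MeasureTheory Set Filter Metric
open scoped ContDiff Topology Real

namespace Vale.Agent.P205.WK

/-! ### smooth parameter integrals -/

section param

variable {S F : Type} [NormedAddCommGroup S] [NormedSpace ℝ S] [MeasurableSpace S] [BorelSpace S]
  [SecondCountableTopology S]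
  [NormedAddCommGroup F] [NormedSpace ℝ F] [FiniteDimensional ℝ F]

omit [MeasurableSpace S] [BorelSpace S] [SecondCountableTopology S] [FiniteDimensional ℝ F] in
/-- The derivative in the second variable of a jointly smooth function is jointly smooth. -/
theorem contDiff_fderiv_snd {E : Type} [NormedAddCommGroup E] [NormedSpace ℝ E]
    {f : S → F → E} (hf : ContDiff ℝ ∞ (Function.uncurry f)) :
    ContDiff ℝ ∞ (Function.uncurry fun s y => fderiv ℝ (f s) y) := by
  have h : ContDiff ℝ ∞ fun p : S × F => fderiv ℝ (f p.1) p.2 := by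
    refine ContDiff.fderiv (f := fun (p : S × F) (y : F) => f p.1 y) (g := fun p : S × F => p.2)
      (n := ∞) (m := ∞) ?_ contDiff_snd (by norm_num)
    exact hf.comp ((contDiff_fst.comp contDiff_fst).prodMk contDiff_snd)
  exact h

variable (ν : Measure S) [IsFiniteMeasure ν] {K : Set S}

theorem hasFDerivAt_integral_param {E : Type} [NormedAddCommGroup E] [NormedSpace ℝ E]
    (hK : IsCompact K) (hν : ν Kᶜ = 0)
    {f : S → F → E} (hf : ContDiff ℝ ∞ (Function.uncurry f)) (y0 : F) :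
    Integrable (fun s => fderiv ℝ (f s) y0) ν ∧
    HasFDerivAt (fun y => ∫ s, f s y ∂ν) (∫ s, fderiv ℝ (f s) y0 ∂ν) y0 := by
  have hf' := contDiff_fderiv_snd hf
  have hcs : ∀ y, Continuous fun s => f s y := fun y =>
    hf.continuous.comp (continuous_id.prodMk continuous_const)
  have hcs' : ∀ y, Continuous fun s => fderiv ℝ (f s) y := fun y =>
    hf'.continuous.comp (continuous_id.prodMk continuous_const)
  have hae : ∀ᵐ s ∂ν, s ∈ K := by
    rw [ae_iff]; exact hν
  obtain ⟨C, hC⟩ := (hK.prod (isCompact_closedBall y0 1)).exists_bound_of_continuousOn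
    (f := Function.uncurry fun s y => fderiv ℝ (f s) y) hf'.continuous.continuousOn
  have hint : ∀ y, Integrable (fun s => f s y) ν := by
    intro y
    obtain ⟨C1, hC1⟩ := hK.exists_bound_of_continuousOn (f := fun s => f s y) (hcs y).continuousOn
    refine Integrable.of_bound (hcs y).aestronglyMeasurable C1 ?_
    filter_upwards [hae] with s hs using hC1 s hs
  refine ⟨?_, hasFDerivAt_integral_of_dominated_of_fderiv_le (F := fun y s => f s y)
    (F' := fun y s => fderiv ℝ (f s) y) (bound := fun _ => C) (s := ball y0 1)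
    (ball_mem_nhds y0 one_pos) ?_ (hint y0) (hcs' y0).aestronglyMeasurable ?_
    (integrable_const C) ?_⟩
  · refine Integrable.of_bound (hcs' y0).aestronglyMeasurable C ?_
    filter_upwards [hae] with s hs
    exact hC (s, y0) ⟨hs, mem_closedBall_self zero_le_one⟩
  · exact Eventually.of_forall fun y => (hcs y).aestronglyMeasurable
  · filter_upwards [hae] with s hs y hy
    exact hC (s, y) ⟨hs, ball_subset_closedBall hy⟩
  · refine Eventually.of_forall fun s y _ => ?_
    have : ContDiff ℝ ∞ (f s) := hf.comp (contDiff_const.prodMk contDiff_id)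
    exact (this.differentiable (by norm_num) y).hasFDerivAt

theorem contDiff_integral_param_aux (hK : IsCompact K) (hν : ν Kᶜ = 0) (n : ℕ) :
    ∀ (E : Type) [NormedAddCommGroup E] [NormedSpace ℝ E] (f : S → F → E),
      ContDiff ℝ ∞ (Function.uncurry f) → ContDiff ℝ n fun y => ∫ s, f s y ∂ν := by
  induction n with
  | zero =>
    intro E _ _ f hf
    rw [Nat.cast_zero, contDiff_zero, continuous_iff_continuousAt]
    exact fun y => (hasFDerivAt_integral_param ν hK hν hf y).2.continuousAt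
  | succ n ih =>
    intro E _ _ f hf
    rw [show ((n + 1 : ℕ) : WithTop ℕ∞) = (n : WithTop ℕ∞) + 1 by push_cast; rfl,
      contDiff_succ_iff_fderiv]
    refine ⟨fun y => (hasFDerivAt_integral_param ν hK hν hf y).2.differentiableAt, by simp, ?_⟩
    have h : (fderiv ℝ fun y => ∫ s, f s y ∂ν) = fun y => ∫ s, fderiv ℝ (f s) y ∂ν := by
      funext y
      exact (hasFDerivAt_integral_param ν hK hν hf y).2.fderiv
    rw [h]
    exact ih (F →L[ℝ] E) _ (contDiff_fderiv_snd hf)

/-- Smoothness of parameter integrals. -/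
theorem contDiff_integral_param {E : Type} [NormedAddCommGroup E] [NormedSpace ℝ E]
    (hK : IsCompact K) (hν : ν Kᶜ = 0)
    {f : S → F → E} (hf : ContDiff ℝ ∞ (Function.uncurry f)) :
    ContDiff ℝ ∞ fun y => ∫ s, f s y ∂ν := by
  rw [contDiff_infty]
  exact fun n => contDiff_integral_param_aux ν hK hν n E f hf

end param

/-! ### points, weights, derivations -/

/-- points `(ξ₁, ξ₂, θ)` -/
abbrev Q := ℝ × ℝ × ℝ

/-- the weights `(1 + ξ_j²)^{3/2}` and `1` -/
noncomputable def g : Fin 3 → Q → ℝ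
  | 0, p => (1 + p.1 ^ 2) * √(1 + p.1 ^ 2)
  | 1, p => (1 + p.2.1 ^ 2) * √(1 + p.2.1 ^ 2)
  | 2, _ => 1

/-- the basis -/
def e : Fin 3 → Q
  | 0 => (1, 0, 0)
  | 1 => (0, 1, 0)
  | 2 => (0, 0, 1)

/-- the derivations `∂/∂x₁`, `∂/∂x₂`, `∂/∂θ` -/
noncomputable def D (j : Fin 3) (u : Q → ℝ) : Q → ℝ := fun p => g j p * fderiv ℝ u p (e j)

/-- iterated derivative along a word -/
noncomputable def wd : List (Fin 3) → (Q → ℝ) → (Q → ℝ)
  | [], u => u
  | j :: w, u => D j (wd w u)

/-- `1/s = 1/((1-x₁²)(1-x₂²))` -/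
def om (p : Q) : ℝ := (1 + p.1 ^ 2) * (1 + p.2.1 ^ 2)

/-- `2π`-periodic in `θ` -/
def Per (u : Q → ℝ) : Prop := ∀ a b t : ℝ, u (a, b, t + 2 * π) = u (a, b, t)

/-- slow: independent of `θ` -/
def Sl (u : Q → ℝ) : Prop := ∀ a b t t' : ℝ, u (a, b, t) = u (a, b, t')

theorem om_ge_one (p : Q) : 1 ≤ om p := by
  unfold om
  nlinarith [sq_nonneg p.1, sq_nonneg p.2.1, mul_nonneg (sq_nonneg p.1) (sq_nonneg p.2.1)]

theorem om_pos (p : Q) : 0 < om p := zero_lt_one.trans_le (om_ge_one p)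

theorem g_pos (j : Fin 3) (p : Q) : 0 < g j p := by
  fin_cases j
  · change 0 < (1 + p.1 ^ 2) * √(1 + p.1 ^ 2)
    positivity
  · change 0 < (1 + p.2.1 ^ 2) * √(1 + p.2.1 ^ 2)
    positivity
  · exact one_pos

theorem contDiff_g (j : Fin 3) : ContDiff ℝ ∞ (g j) := by
  have h1 : ∀ {f : Q → ℝ}, ContDiff ℝ ∞ f →
      ContDiff ℝ ∞ (fun p => (1 + f p ^ 2) * √(1 + f p ^ 2)) := by
    intro f hf
    have h : ContDiff ℝ ∞ fun p => 1 + f p ^ 2 := contDiff_const.add (hf.pow 2)
    exact h.mul (h.sqrt fun p => by positivity)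
  fin_cases j
  · exact h1 contDiff_fst
  · exact h1 (contDiff_fst.comp contDiff_snd)
  · exact contDiff_const

section derivations

variable {u v : Q → ℝ}

theorem smooth_D (j : Fin 3) (hu : ContDiff ℝ ∞ u) : ContDiff ℝ ∞ (D j u) :=
  (contDiff_g j).mul ((hu.fderiv_right (m := ∞) (by norm_num)).clm_apply contDiff_const)

theorem smooth_wd (w : List (Fin 3)) (hu : ContDiff ℝ ∞ u) : ContDiff ℝ ∞ (wd w u) := by
  induction w with
  | nil => exact hu
  | cons j w ih => exact smooth_D j ih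

theorem diffb (hu : ContDiff ℝ ∞ u) (p : Q) : DifferentiableAt ℝ u p :=
  hu.differentiable (by norm_num) p

theorem D_add (j : Fin 3) (hu : ContDiff ℝ ∞ u) (hv : ContDiff ℝ ∞ v) :
    D j (u + v) = D j u + D j v := by
  funext p
  simp only [D, Pi.add_apply]
  rw [fderiv_add (diffb hu p) (diffb hv p)]
  exact mul_add _ _ _

theorem D_sub (j : Fin 3) (hu : ContDiff ℝ ∞ u) (hv : ContDiff ℝ ∞ v) :
    D j (u - v) = D j u - D j v := by
  funext p
  simp only [D, Pi.sub_apply]
  rw [fderiv_sub (diffb hu p) (diffb hv p)]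
  exact mul_sub _ _ _

theorem D_neg (j : Fin 3) : D j (-u) = -D j u := by
  funext p
  simp only [D, Pi.neg_apply]
  rw [fderiv_neg]
  exact mul_neg _ _

theorem D_const (j : Fin 3) (c : ℝ) : D j (fun _ => c) = 0 := by
  funext p
  simp [D]

theorem D_mul (j : Fin 3) (hu : ContDiff ℝ ∞ u) (hv : ContDiff ℝ ∞ v) :
    D j (u * v) = D j u * v + u * D j v := by
  funext p
  simp only [D, Pi.add_apply, Pi.mul_apply]
  rw [fderiv_mul (diffb hu p) (diffb hv p)]
  change g j p * (u p * fderiv ℝ v p (e j) + v p * fderiv ℝ u p (e j)) = _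
  ring

theorem D_smul (j : Fin 3) (c : ℝ) (hu : ContDiff ℝ ∞ u) :
    D j (fun p => c * u p) = fun p => c * D j u p := by
  funext p
  simp only [D]
  rw [fderiv_const_mul (diffb hu p)]
  change g j p * (c * fderiv ℝ u p (e j)) = _
  ring

/-- chain rule -/
theorem D_comp (j : Fin 3) {F : ℝ → ℝ} (hu : ContDiff ℝ ∞ u) {p : Q}
    (hF : DifferentiableAt ℝ F (u p)) : D j (fun p => F (u p)) p = deriv F (u p) * D j u p := by
  have h := hF.hasDerivAt.comp_hasFDerivAt p (diffb hu p).hasFDerivAt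
  simp only [D]
  have e1 : fderiv ℝ (fun p => F (u p)) p = deriv F (u p) • fderiv ℝ u p := h.fderiv
  rw [e1]
  change g j p * (deriv F (u p) * fderiv ℝ u p (e j)) = _
  ring

theorem wd_append (w w' : List (Fin 3)) (u : Q → ℝ) : wd (w ++ w') u = wd w (wd w' u) := by
  induction w with
  | nil => rfl
  | cons j w ih =>
    change D j (wd (w ++ w') u) = D j (wd w (wd w' u))
    rw [ih]

theorem wd_snoc (w : List (Fin 3)) (j : Fin 3) (u : Q → ℝ) : wd (w ++ [j]) u = wd w (D j u) :=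
  wd_append w [j] u

theorem wd_add (w : List (Fin 3)) (hu : ContDiff ℝ ∞ u) (hv : ContDiff ℝ ∞ v) :
    wd w (u + v) = wd w u + wd w v := by
  induction w with
  | nil => rfl
  | cons j w ih =>
    change D j (wd w (u + v)) = D j (wd w u) + D j (wd w v)
    rw [ih, D_add j (smooth_wd w hu) (smooth_wd w hv)]

/-! ### partial derivatives along the axes -/

theorem hasDerivAt_line (j : Fin 3) (hu : ContDiff ℝ ∞ u) (p : Q) :
    HasDerivAt (fun t : ℝ => u (p + t • e j)) (fderiv ℝ u p (e j)) 0 := by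
  have h1 : HasDerivAt (fun t : ℝ => p + t • e j) (e j) 0 := by
    simpa using ((hasDerivAt_id (0 : ℝ)).smul_const (e j)).const_add p
  have h2 : HasFDerivAt u (fderiv ℝ u p) (p + (0 : ℝ) • e j) := by
    simpa using (diffb hu p).hasFDerivAt
  exact h2.comp_hasDerivAt 0 h1

theorem hasDerivAt_snd (hu : ContDiff ℝ ∞ u) (a b t : ℝ) :
    HasDerivAt (fun s : ℝ => u (a, s, t)) (fderiv ℝ u (a, b, t) (e 1)) b := by
  have h1 : HasDerivAt (fun s : ℝ => ((a, s, t) : Q)) (0, 1, 0) b :=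
    (hasDerivAt_const b a).prodMk ((hasDerivAt_id b).prodMk (hasDerivAt_const b t))
  exact (diffb hu (a, b, t)).hasFDerivAt.comp_hasDerivAt b h1

theorem hasDerivAt_thd (hu : ContDiff ℝ ∞ u) (a b t : ℝ) :
    HasDerivAt (fun s : ℝ => u (a, b, s)) (fderiv ℝ u (a, b, t) (e 2)) t := by
  have h1 : HasDerivAt (fun s : ℝ => ((a, b, s) : Q)) (0, 0, 1) t :=
    (hasDerivAt_const t a).prodMk ((hasDerivAt_const t b).prodMk (hasDerivAt_id t))
  exact (diffb hu (a, b, t)).hasFDerivAt.comp_hasDerivAt t h1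

/-! ### commutation -/

theorem g_line (i j : Fin 3) (hij : i ≠ j) (p : Q) (t : ℝ) : g j (p + t • e i) = g j p := by
  fin_cases i <;> fin_cases j <;> first | exact absurd rfl hij | skip
  all_goals simp [g, e]

theorem fderiv_g (i j : Fin 3) (hij : i ≠ j) (p : Q) : fderiv ℝ (g j) p (e i) = 0 := by
  have h := hasDerivAt_line i (contDiff_g j) p
  have h2 : (fun t : ℝ => g j (p + t • e i)) = fun _ => g j p := by
    funext t
    exact g_line i j hij p t
  rw [h2] at h
  exact h.unique (hasDerivAt_const 0 _)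

theorem D_comm (i j : Fin 3) (hu : ContDiff ℝ ∞ u) : D i (D j u) = D j (D i u) := by
  by_cases hij : i = j
  · rw [hij]
  have key : ∀ i j : Fin 3, i ≠ j → ∀ p, D i (D j u) p
      = g i p * g j p * fderiv ℝ (fderiv ℝ u) p (e i) (e j) := by
    intro i j hij p
    have hd : ContDiff ℝ ∞ (fderiv ℝ u) := hu.fderiv_right (m := ∞) (by norm_num)
    have hdp : DifferentiableAt ℝ (fderiv ℝ u) p := hd.differentiable (by norm_num) p
    have h1 : HasFDerivAt (fun q => fderiv ℝ u q (e j))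
        ((ContinuousLinearMap.apply ℝ ℝ (e j)).comp (fderiv ℝ (fderiv ℝ u) p)) p :=
      (ContinuousLinearMap.apply ℝ ℝ (e j)).hasFDerivAt.comp p hdp.hasFDerivAt
    have h2 : fderiv ℝ (D j u) p
        = g j p • ((ContinuousLinearMap.apply ℝ ℝ (e j)).comp (fderiv ℝ (fderiv ℝ u) p))
        + fderiv ℝ u p (e j) • fderiv ℝ (g j) p :=
      ((diffb (contDiff_g j) p).hasFDerivAt.mul h1).fderiv
    change g i p * fderiv ℝ (D j u) p (e i) = _
    rw [h2]
    change g i p * (g j p * fderiv ℝ (fderiv ℝ u) p (e i) (e j)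
      + fderiv ℝ u p (e j) * fderiv ℝ (g j) p (e i)) = _
    rw [fderiv_g i j hij p]
    ring
  funext p
  rw [key i j hij, key j i (Ne.symm hij)]
  have hs : IsSymmSndFDerivAt ℝ u p := by
    refine ContDiffAt.isSymmSndFDerivAt (n := 2) (hu.contDiffAt.of_le ?_) ?_
    · exact WithTop.coe_le_coe.2 le_top
    · simp
  rw [hs.eq (e i) (e j)]
  ring

end derivations

/-! ### parameter integrals -/

section operators

variable {u v : Q → ℝ}

/-- parameter integral over `[0, b]` -/
noncomputable def PI (b : ℝ) (f : ℝ → Q → ℝ) : Q → ℝ := fun p => ∫ s in (0 : ℝ)..b, f s p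

theorem PI_eq {b : ℝ} (hb : 0 ≤ b) (f : ℝ → Q → ℝ) :
    PI b f = fun p => ∫ s, f s p ∂(volume.restrict (Ioc 0 b)) := by
  funext p
  exact intervalIntegral.integral_of_le hb

theorem ioc_compl (b : ℝ) : (volume.restrict (Ioc 0 b)) (Icc 0 b)ᶜ = 0 := by
  rw [Measure.restrict_apply isClosed_Icc.measurableSet.compl]
  have : (Icc 0 b)ᶜ ∩ Ioc 0 b = ∅ := by
    ext x
    simp only [mem_inter_iff, mem_compl_iff, mem_Icc, mem_Ioc, mem_empty_iff_false, iff_false]
    intro h
    exact h.1 ⟨h.2.1.le, h.2.2⟩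
  rw [this, measure_empty]

theorem smooth_PI {b : ℝ} (hb : 0 ≤ b) {f : ℝ → Q → ℝ}
    (hf : ContDiff ℝ ∞ (Function.uncurry f)) : ContDiff ℝ ∞ (PI b f) := by
  rw [PI_eq hb]
  exact contDiff_integral_param (volume.restrict (Ioc 0 b)) isCompact_Icc (ioc_compl b) hf

theorem D_PI {b : ℝ} (hb : 0 ≤ b) {f : ℝ → Q → ℝ}
    (hf : ContDiff ℝ ∞ (Function.uncurry f)) (j : Fin 3) :
    D j (PI b f) = PI b (fun s => D j (f s)) := by
  rw [PI_eq hb, PI_eq hb]
  funext p
  obtain ⟨hi, hd⟩ := hasFDerivAt_integral_param (volume.restrict (Ioc 0 b)) isCompact_Icc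
    (ioc_compl b) hf p
  simp only [D]
  rw [hd.fderiv, integral_const_mul]
  congr 1
  exact ContinuousLinearMap.integral_apply hi (e j)

theorem smooth_uncurry_D {f : ℝ → Q → ℝ} (hf : ContDiff ℝ ∞ (Function.uncurry f)) (j : Fin 3) :
    ContDiff ℝ ∞ (Function.uncurry fun s => D j (f s)) := by
  have h := contDiff_fderiv_snd hf
  have h2 : ContDiff ℝ ∞ fun q : ℝ × Q => g j q.2 * fderiv ℝ (f q.1) q.2 (e j) :=
    ((contDiff_g j).comp contDiff_snd).mul (h.clm_apply contDiff_const)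
  exact h2

/-- derivative along an axis only sees the line -/
theorem D_congr_line (j : Fin 3) (hu : ContDiff ℝ ∞ u) (hv : ContDiff ℝ ∞ v) {p q : Q} {c : ℝ}
    (hg : g j p = g j q) (h : ∀ t : ℝ, u (p + t • e j) = c * v (q + t • e j)) :
    D j u p = c * D j v q := by
  have h1 := hasDerivAt_line j hu p
  have h2 := (hasDerivAt_line j hv q).const_mul c
  have h3 : (fun t : ℝ => u (p + t • e j)) = fun t => c * v (q + t • e j) := funext h
  rw [h3] at h1
  have h4 := h1.unique h2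
  simp only [D]
  rw [h4, hg]
  ring

/-! #### averaging in `θ` -/

/-- averaging operator with kernel `k` -/
noncomputable def Av (k : ℝ → ℝ) (u : Q → ℝ) : Q → ℝ :=
  PI (2 * π) (fun s p => k s * u (p.1, p.2.1, p.2.2 + s))

theorem smooth_uncurry_Av {k : ℝ → ℝ} (hk : ContDiff ℝ ∞ k) (hu : ContDiff ℝ ∞ u) :
    ContDiff ℝ ∞ (Function.uncurry fun (s : ℝ) (p : Q) => k s * u (p.1, p.2.1, p.2.2 + s)) := by
  have h : ContDiff ℝ ∞ fun q : ℝ × Q => k q.1 * u (q.2.1, q.2.2.1, q.2.2.2 + q.1) := by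
    refine (hk.comp contDiff_fst).mul (hu.comp ?_)
    exact (contDiff_fst.comp contDiff_snd).prodMk
      (((contDiff_fst.comp (contDiff_snd.comp contDiff_snd))).prodMk
        ((contDiff_snd.comp (contDiff_snd.comp contDiff_snd)).add contDiff_fst))
  exact h

theorem twopi_nonneg : (0 : ℝ) ≤ 2 * π := by positivity

theorem smooth_Av {k : ℝ → ℝ} (hk : ContDiff ℝ ∞ k) (hu : ContDiff ℝ ∞ u) :
    ContDiff ℝ ∞ (Av k u) := smooth_PI twopi_nonneg (smooth_uncurry_Av hk hu)

theorem g_shift (j : Fin 3) (p : Q) (s : ℝ) : g j p = g j (p.1, p.2.1, p.2.2 + s) := by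
  fin_cases j <;> rfl

theorem D_shift (j : Fin 3) (hu : ContDiff ℝ ∞ u) (c s : ℝ) :
    D j (fun p : Q => c * u (p.1, p.2.1, p.2.2 + s))
      = fun p => c * D j u (p.1, p.2.1, p.2.2 + s) := by
  funext p
  have hs : ContDiff ℝ ∞ fun p : Q => c * u (p.1, p.2.1, p.2.2 + s) := by
    refine contDiff_const.mul (hu.comp ?_)
    exact contDiff_fst.prodMk ((contDiff_fst.comp contDiff_snd).prodMk
      ((contDiff_snd.comp contDiff_snd).add contDiff_const))
  refine D_congr_line j hs hu (g_shift j p s) fun t => ?_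
  congr 2
  simp only [Prod.fst_add, Prod.snd_add, Prod.smul_fst, Prod.smul_snd]
  ext <;> simp
  ring

theorem D_Av {k : ℝ → ℝ} (hk : ContDiff ℝ ∞ k) (hu : ContDiff ℝ ∞ u) (j : Fin 3) :
    D j (Av k u) = Av k (D j u) := by
  unfold Av
  rw [D_PI twopi_nonneg (smooth_uncurry_Av hk hu)]
  congr 1
  funext s
  exact D_shift j hu (k s) s

theorem wd_Av {k : ℝ → ℝ} (hk : ContDiff ℝ ∞ k) (hu : ContDiff ℝ ∞ u) (w : List (Fin 3)) :
    wd w (Av k u) = Av k (wd w u) := by
  induction w with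
  | nil => rfl
  | cons j w ih =>
    change D j (wd w (Av k u)) = Av k (D j (wd w u))
    rw [ih, D_Av hk (smooth_wd w hu)]

theorem abs_Av_le {k : ℝ → ℝ} {B M : ℝ} (hk : ∀ s ∈ Ioc 0 (2 * π), |k s| ≤ B) (hB : 0 ≤ B)
    {p : Q} (hM : ∀ s, |u (p.1, p.2.1, s)| ≤ M) : |Av k u p| ≤ B * M * (2 * π) := by
  unfold Av PI
  have h := intervalIntegral.norm_integral_le_of_norm_le_const (a := 0) (b := 2 * π)
    (C := B * M) (f := fun s => k s * u (p.1, p.2.1, p.2.2 + s)) ?_
  · rwa [sub_zero, abs_of_nonneg twopi_nonneg, Real.norm_eq_abs] at h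
  · intro s hs
    rw [uIoc_of_le twopi_nonneg] at hs
    rw [Real.norm_eq_abs, abs_mul]
    exact mul_le_mul (hk s hs) (hM _) (abs_nonneg _) hB

theorem per_Av {k : ℝ → ℝ} (hp : Per u) : Per (Av k u) := by
  intro a b t
  unfold Av PI
  simp only
  refine intervalIntegral.integral_congr fun s _ => ?_
  change k s * u (a, b, t + 2 * π + s) = k s * u (a, b, t + s)
  rw [show t + 2 * π + s = t + s + 2 * π by ring, hp]

theorem Av_add {k : ℝ → ℝ} (hk : ContDiff ℝ ∞ k) (hu : ContDiff ℝ ∞ u) (hv : ContDiff ℝ ∞ v) :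
    Av k (u + v) = Av k u + Av k v := by
  funext p
  unfold Av PI
  rw [Pi.add_apply, ← intervalIntegral.integral_add]
  · refine intervalIntegral.integral_congr fun s _ => ?_
    simp only [Pi.add_apply]
    ring
  · exact ((smooth_uncurry_Av hk hu).continuous.comp
      (continuous_id.prodMk continuous_const)).intervalIntegrable _ _
  · exact ((smooth_uncurry_Av hk hv).continuous.comp
      (continuous_id.prodMk continuous_const)).intervalIntegrable _ _

theorem Av_slow_mul {k : ℝ → ℝ} (hs : Sl v) : Av k (v * u) = v * Av k u := by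
  funext p
  unfold Av PI
  rw [Pi.mul_apply, ← intervalIntegral.integral_const_mul]
  refine intervalIntegral.integral_congr fun s _ => ?_
  simp only [Pi.mul_apply]
  rw [hs p.1 p.2.1 (p.2.2 + s) p.2.2]
  ring

theorem Av_slow {k : ℝ → ℝ} (hs : Sl u) (p : Q) :
    Av k u p = (∫ s in (0 : ℝ)..(2 * π), k s) * u p := by
  unfold Av PI
  rw [← intervalIntegral.integral_mul_const]
  refine intervalIntegral.integral_congr fun s _ => ?_
  simp only
  rw [hs p.1 p.2.1 (p.2.2 + s) p.2.2]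

/-- mean in `θ` -/
noncomputable def mn (u : Q → ℝ) : Q → ℝ :=
  fun p => (2 * π)⁻¹ * ∫ s in (0 : ℝ)..(2 * π), u (p.1, p.2.1, s)

/-- kernel of the primitive -/
noncomputable def kp (s : ℝ) : ℝ := (2 * π)⁻¹ * (s - π)

/-- zero mean primitive in `θ` of `u - mn u` -/
noncomputable def pr (u : Q → ℝ) : Q → ℝ := Av kp u

theorem smooth_kp : ContDiff ℝ ∞ kp := contDiff_const.mul (contDiff_id.sub contDiff_const)

theorem pr_apply (u : Q → ℝ) (p : Q) :
    pr u p = (2 * π)⁻¹ * ∫ s in (0 : ℝ)..(2 * π), (s - π) * u (p.1, p.2.1, p.2.2 + s) := by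
  unfold pr Av PI kp
  rw [← intervalIntegral.integral_const_mul]
  refine intervalIntegral.integral_congr fun s _ => ?_
  simp only
  ring

theorem mn_eq (hp : Per u) : mn u = Av (fun _ => (2 * π)⁻¹) u := by
  funext p
  unfold mn Av PI
  rw [intervalIntegral.integral_const_mul]
  congr 1
  have h : Function.Periodic (fun s => u (p.1, p.2.1, s)) (2 * π) := fun s => hp p.1 p.2.1 s
  have h2 := h.intervalIntegral_add_eq 0 p.2.2
  rw [zero_add] at h2
  rw [h2]
  have h3 := intervalIntegral.integral_comp_add_left (a := 0) (b := 2 * π)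
    (fun s => u (p.1, p.2.1, s)) p.2.2
  rw [add_zero] at h3
  exact h3.symm

theorem smooth_mn (hu : ContDiff ℝ ∞ u) (hp : Per u) : ContDiff ℝ ∞ (mn u) := by
  rw [mn_eq hp]
  exact smooth_Av contDiff_const hu

theorem smooth_pr (hu : ContDiff ℝ ∞ u) : ContDiff ℝ ∞ (pr u) := smooth_Av smooth_kp hu

theorem per_D (j : Fin 3) (hu : ContDiff ℝ ∞ u) (hp : Per u) : Per (D j u) := by
  intro a b t
  have h := D_congr_line j hu hu (p := (a, b, t + 2 * π)) (q := (a, b, t)) (c := 1)
    (g_shift j (a, b, t) (2 * π)).symm (fun s => ?_)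
  · rwa [one_mul] at h
  · rw [one_mul]
    have := hp (a + (s • e j).1) (b + (s • e j).2.1) (t + (s • e j).2.2)
    have e1 : ((a, b, t + 2 * π) : Q) + s • e j
        = (a + (s • e j).1, b + (s • e j).2.1, t + (s • e j).2.2 + 2 * π) := by
      ext
      · rfl
      · rfl
      · change t + 2 * π + (s • e j).2.2 = t + (s • e j).2.2 + 2 * π
        ring
    rw [e1, this]
    rfl

theorem per_wd (w : List (Fin 3)) (hu : ContDiff ℝ ∞ u) (hp : Per u) : Per (wd w u) := by
  induction w with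
  | nil => exact hp
  | cons j w ih => exact per_D j (smooth_wd w hu) ih

theorem sl_mn (u : Q → ℝ) : Sl (mn u) := fun _ _ _ _ => rfl

theorem per_of_sl (hs : Sl u) : Per u := fun a b _ => hs a b _ _

theorem per_mn (u : Q → ℝ) : Per (mn u) := per_of_sl (sl_mn u)

theorem per_pr (hp : Per u) : Per (pr u) := per_Av hp

theorem D_mn (j : Fin 3) (hu : ContDiff ℝ ∞ u) (hp : Per u) : D j (mn u) = mn (D j u) := by
  rw [mn_eq hp, mn_eq (per_D j hu hp), D_Av contDiff_const hu]

theorem D_pr (j : Fin 3) (hu : ContDiff ℝ ∞ u) : D j (pr u) = pr (D j u) :=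
  D_Av smooth_kp hu j

theorem D_eq_zero_of_line (j : Fin 3) (hu : ContDiff ℝ ∞ u) {p : Q}
    (h : ∀ t : ℝ, u (p + t • e j) = u p) : D j u p = 0 := by
  have h1 := hasDerivAt_line j hu p
  have h2 : (fun t : ℝ => u (p + t • e j)) = fun _ => u p := funext h
  rw [h2] at h1
  have h3 := h1.unique (hasDerivAt_const 0 _)
  simp only [D]
  rw [h3, mul_zero]

theorem D2_of_sl (hu : ContDiff ℝ ∞ u) (hs : Sl u) : D 2 u = 0 := by
  funext p
  refine D_eq_zero_of_line 2 hu fun t => ?_
  have e1 : p + t • e 2 = (p.1, p.2.1, p.2.2 + t) := by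
    ext <;> simp [e]
  rw [e1]
  exact hs p.1 p.2.1 _ _

theorem sl_D (j : Fin 3) (hu : ContDiff ℝ ∞ u) (hs : Sl u) : Sl (D j u) := by
  intro a b t t'
  have h := D_congr_line j hu hu (p := (a, b, t)) (q := (a, b, t')) (c := 1)
    (by fin_cases j <;> rfl) (fun s => ?_)
  · rwa [one_mul] at h
  · rw [one_mul]
    exact hs (a + (s • e j).1) (b + (s • e j).2.1) (t + (s • e j).2.2) (t' + (s • e j).2.2)

theorem sl_mul (hu : Sl u) (hv : Sl v) : Sl (u * v) := fun a b t t' => by
  rw [Pi.mul_apply, Pi.mul_apply, hu a b t t', hv a b t t']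

theorem sl_add (hu : Sl u) (hv : Sl v) : Sl (u + v) := fun a b t t' => by
  rw [Pi.add_apply, Pi.add_apply, hu a b t t', hv a b t t']

theorem sl_sub (hu : Sl u) (hv : Sl v) : Sl (u - v) := fun a b t t' => by
  rw [Pi.sub_apply, Pi.sub_apply, hu a b t t', hv a b t t']

theorem sl_neg (hu : Sl u) : Sl (-u) := fun a b t t' => by
  rw [Pi.neg_apply, Pi.neg_apply, hu a b t t']

theorem sl_const (c : ℝ) : Sl (fun _ => c) := fun _ _ _ _ => rfl

/-- functions of a slow function are slow -/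
theorem sl_comp (F : ℝ → ℝ) (hu : Sl u) : Sl (fun p => F (u p)) := fun a b t t' => by
  change F (u (a, b, t)) = F (u (a, b, t'))
  rw [hu a b t t']

theorem per_add (hu : Per u) (hv : Per v) : Per (u + v) := fun a b t => by
  rw [Pi.add_apply, Pi.add_apply, hu a b t, hv a b t]

theorem per_sub (hu : Per u) (hv : Per v) : Per (u - v) := fun a b t => by
  rw [Pi.sub_apply, Pi.sub_apply, hu a b t, hv a b t]

theorem per_neg (hu : Per u) : Per (-u) := fun a b t => by
  rw [Pi.neg_apply, Pi.neg_apply, hu a b t]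

theorem per_mul (hu : Per u) (hv : Per v) : Per (u * v) := fun a b t => by
  rw [Pi.mul_apply, Pi.mul_apply, hu a b t, hv a b t]

theorem per_const (c : ℝ) : Per (fun _ => c) := fun _ _ _ => rfl

theorem per_comp (F : ℝ → ℝ) (hu : Per u) : Per (fun p => F (u p)) := fun a b t => by
  change F (u (a, b, t + 2 * π)) = F (u (a, b, t))
  rw [hu a b t]

theorem mn_of_sl (hs : Sl u) : mn u = u := by
  funext p
  unfold mn
  have h : ∫ s in (0 : ℝ)..(2 * π), u (p.1, p.2.1, s) = 2 * π * u p := by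
    rw [intervalIntegral.integral_congr (g := fun _ => u p) fun s _ => hs p.1 p.2.1 s p.2.2]
    simp
  rw [h]
  have : (π : ℝ) ≠ 0 := Real.pi_ne_zero
  field_simp

theorem mn_mn (u : Q → ℝ) : mn (mn u) = mn u := mn_of_sl (sl_mn u)

theorem mn_const (c : ℝ) : mn (fun _ => c) = fun _ => c := mn_of_sl (sl_const c)

theorem integral_kp : ∫ s in (0 : ℝ)..(2 * π), kp s = 0 := by
  unfold kp
  rw [intervalIntegral.integral_const_mul, intervalIntegral.integral_sub]
  · simp only [integral_id, intervalIntegral.integral_const, smul_eq_mul]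
    ring
  · exact continuous_id.intervalIntegrable _ _
  · exact continuous_const.intervalIntegrable _ _

theorem pr_of_sl (hs : Sl u) : pr u = 0 := by
  funext p
  unfold pr
  rw [Av_slow hs, integral_kp, zero_mul]
  rfl

theorem pr_mn (u : Q → ℝ) : pr (mn u) = 0 := pr_of_sl (sl_mn u)

theorem mn_slow_mul (hs : Sl v) (u : Q → ℝ) : mn (v * u) = v * mn u := by
  funext p
  unfold mn
  rw [Pi.mul_apply]
  have h : ∫ s in (0 : ℝ)..(2 * π), (v * u) (p.1, p.2.1, s)
      = v p * ∫ s in (0 : ℝ)..(2 * π), u (p.1, p.2.1, s) := by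
    rw [← intervalIntegral.integral_const_mul]
    refine intervalIntegral.integral_congr fun s _ => ?_
    simp only [Pi.mul_apply]
    rw [hs p.1 p.2.1 s p.2.2]
  rw [h]
  ring

theorem pr_slow_mul (hs : Sl v) (u : Q → ℝ) : pr (v * u) = v * pr u := Av_slow_mul hs

theorem mn_add (hu : ContDiff ℝ ∞ u) (hv : ContDiff ℝ ∞ v) (hpu : Per u) (hpv : Per v) :
    mn (u + v) = mn u + mn v := by
  rw [mn_eq (per_add hpu hpv), mn_eq hpu, mn_eq hpv, Av_add contDiff_const hu hv]

theorem mn_neg (u : Q → ℝ) : mn (-u) = -mn u := by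
  have h := mn_slow_mul (v := fun _ => (-1 : ℝ)) (sl_const (-1)) u
  have e1 : ∀ w : Q → ℝ, (fun _ => (-1 : ℝ)) * w = -w := fun w => by
    funext p
    simp
  rwa [e1, e1] at h

theorem mn_sub (hu : ContDiff ℝ ∞ u) (hv : ContDiff ℝ ∞ v) (hpu : Per u) (hpv : Per v) :
    mn (u - v) = mn u - mn v := by
  have hv' : ContDiff ℝ ∞ (-v) := hv.neg
  rw [sub_eq_add_neg, mn_add hu hv' hpu (per_neg hpv), mn_neg, ← sub_eq_add_neg]

theorem pr_add (hu : ContDiff ℝ ∞ u) (hv : ContDiff ℝ ∞ v) : pr (u + v) = pr u + pr v :=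
  Av_add smooth_kp hu hv

theorem pr_neg (u : Q → ℝ) : pr (-u) = -pr u := by
  have h := pr_slow_mul (v := fun _ => (-1 : ℝ)) (sl_const (-1)) u
  have e1 : ∀ w : Q → ℝ, (fun _ => (-1 : ℝ)) * w = -w := fun w => by
    funext p
    simp
  rwa [e1, e1] at h

theorem pr_sub (hu : ContDiff ℝ ∞ u) (hv : ContDiff ℝ ∞ v) : pr (u - v) = pr u - pr v := by
  have hv' : ContDiff ℝ ∞ (-v) := hv.neg
  rw [sub_eq_add_neg, pr_add hu hv', pr_neg, ← sub_eq_add_neg]

/-- `∂_θ pr u = u - mn u` -/
theorem D2_pr (hu : ContDiff ℝ ∞ u) (hp : Per u) : D 2 (pr u) = u - mn u := by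
  rw [D_pr 2 hu, mn_eq hp]
  funext p
  rw [pr_apply, Pi.sub_apply]
  have hV : ∀ s : ℝ, HasDerivAt (fun s => u (p.1, p.2.1, p.2.2 + s))
      (D 2 u (p.1, p.2.1, p.2.2 + s)) s := by
    intro s
    have h1 := hasDerivAt_thd hu p.1 p.2.1 (p.2.2 + s)
    have h2 := h1.comp s ((hasDerivAt_id s).const_add p.2.2)
    have e1 : D 2 u (p.1, p.2.1, p.2.2 + s) = fderiv ℝ u (p.1, p.2.1, p.2.2 + s) (e 2) * 1 := by
      simp only [D]
      change 1 * _ = _
      ring
    rw [e1]
    exact h2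
  have hU : ∀ s : ℝ, HasDerivAt (fun s : ℝ => s - π) 1 s := fun s =>
    (hasDerivAt_id s).sub_const π
  have hc : Continuous fun s : ℝ => D 2 u (p.1, p.2.1, p.2.2 + s) :=
    (smooth_D 2 hu).continuous.comp
      (continuous_const.prodMk (continuous_const.prodMk (continuous_const.add continuous_id)))
  have h := intervalIntegral.integral_mul_deriv_eq_deriv_mul (a := 0) (b := 2 * π)
    (fun s _ => hU s) (fun s _ => hV s) (continuous_const.intervalIntegrable _ _)
    (hc.intervalIntegrable _ _)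
  rw [h]
  have e2 : u (p.1, p.2.1, p.2.2 + 2 * π) = u p := hp p.1 p.2.1 p.2.2
  have e3 : u (p.1, p.2.1, p.2.2 + 0) = u p := by rw [add_zero]
  rw [e2, e3]
  have e4 : Av (fun _ => (2 * π)⁻¹) u p
      = (2 * π)⁻¹ * ∫ s in (0 : ℝ)..(2 * π), 1 * u (p.1, p.2.1, p.2.2 + s) := by
    unfold Av PI
    rw [← intervalIntegral.integral_const_mul]
    refine intervalIntegral.integral_congr fun s _ => ?_
    simp only
    ring
  rw [e4]
  have : (π : ℝ) ≠ 0 := Real.pi_ne_zero
  field_simp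
  ring

theorem mn_D2 (hu : ContDiff ℝ ∞ u) (hp : Per u) : mn (D 2 u) = 0 := by
  rw [← D_mn 2 hu hp]
  exact D2_of_sl (smooth_mn hu hp) (sl_mn u)

/-- `pr u` has mean zero -/
theorem mn_pr (hu : ContDiff ℝ ∞ u) (hp : Per u) : mn (pr u) = 0 := by
  have hv := smooth_pr hu
  have hvp := per_pr hp
  have h1 : u = D 2 (pr u) + mn u := by rw [D2_pr hu hp, sub_add_cancel]
  have h2 : pr u = D 2 (pr (pr u)) := by
    conv_lhs => rw [h1, pr_add (smooth_D 2 hv) (smooth_mn hu hp), pr_mn, add_zero, ← D_pr 2 hv]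
  rw [D2_pr hv hvp] at h2
  have h3 : pr u - (pr u - mn (pr u)) = 0 := by rw [← h2, sub_self]
  rwa [sub_sub_cancel] at h3

theorem pr_D2 (hu : ContDiff ℝ ∞ u) (hp : Per u) : pr (D 2 u) = u - mn u := by
  rw [← D_pr 2 hu, D2_pr hu hp]

/-! #### the primitive in `x₂` -/

/-- `(1+τ²)^{-3/2}` -/
noncomputable def hh (τ : ℝ) : ℝ := ((1 + τ ^ 2) * √(1 + τ ^ 2))⁻¹

/-- `J u = ∫₀^{x₂} u dx₂` -/
noncomputable def J (u : Q → ℝ) : Q → ℝ := fun p => ∫ τ in (0 : ℝ)..p.2.1, hh τ * u (p.1, τ, p.2.2)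

theorem smooth_hh : ContDiff ℝ ∞ hh := by
  have h : ContDiff ℝ ∞ fun τ : ℝ => 1 + τ ^ 2 := contDiff_const.add (contDiff_id.pow 2)
  exact (h.mul (h.sqrt fun p => by positivity)).inv fun p => by positivity

theorem hh_le_one (τ : ℝ) : hh τ ≤ 1 := by
  unfold hh
  have h1 : (1 : ℝ) ≤ 1 + τ ^ 2 := by nlinarith [sq_nonneg τ]
  have h2 : (1 : ℝ) ≤ √(1 + τ ^ 2) := Real.one_le_sqrt.2 h1
  exact inv_le_one_of_one_le₀ (by nlinarith)

theorem hh_nonneg (τ : ℝ) : 0 ≤ hh τ := by
  unfold hh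
  positivity

/-- integrand of `J` on `[0,1]` -/
noncomputable def fJ (u : Q → ℝ) (σ : ℝ) (p : Q) : ℝ :=
  p.2.1 * hh (σ * p.2.1) * u (p.1, σ * p.2.1, p.2.2)

theorem J_eq (u : Q → ℝ) : J u = PI 1 (fJ u) := by
  funext p
  unfold J PI fJ
  have h := intervalIntegral.mul_integral_comp_mul_right (a := 0) (b := 1)
    (f := fun τ => hh τ * u (p.1, τ, p.2.2)) p.2.1
  rw [zero_mul, one_mul] at h
  rw [← h, ← intervalIntegral.integral_const_mul]
  refine intervalIntegral.integral_congr fun s _ => ?_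
  ring

theorem smooth_fJ (hu : ContDiff ℝ ∞ u) : ContDiff ℝ ∞ (Function.uncurry (fJ u)) := by
  have h21 : ContDiff ℝ ∞ fun q : ℝ × Q => q.2.2.1 :=
    contDiff_fst.comp (contDiff_snd.comp contDiff_snd)
  have hs : ContDiff ℝ ∞ fun q : ℝ × Q => q.1 * q.2.2.1 := contDiff_fst.mul h21
  have h : ContDiff ℝ ∞ fun q : ℝ × Q =>
      q.2.2.1 * hh (q.1 * q.2.2.1) * u (q.2.1, q.1 * q.2.2.1, q.2.2.2) := by
    refine (h21.mul (smooth_hh.comp hs)).mul (hu.comp ?_)
    exact (contDiff_fst.comp contDiff_snd).prodMk (hs.prodMk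
      (contDiff_snd.comp (contDiff_snd.comp contDiff_snd)))
  exact h

theorem smooth_J (hu : ContDiff ℝ ∞ u) : ContDiff ℝ ∞ (J u) := by
  rw [J_eq]
  exact smooth_PI zero_le_one (smooth_fJ hu)

theorem D_J {j : Fin 3} (hj : j ≠ 1) (hu : ContDiff ℝ ∞ u) : D j (J u) = J (D j u) := by
  rw [J_eq, J_eq, D_PI zero_le_one (smooth_fJ hu)]
  congr 1
  funext σ p
  have hs : ContDiff ℝ ∞ (fJ u σ) := (smooth_fJ hu).comp (contDiff_const.prodMk contDiff_id)
  have hp : ∀ t : ℝ, (p + t • e j).2.1 = p.2.1 := by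
    intro t
    fin_cases j
    · simp [e]
    · exact absurd rfl hj
    · simp [e]
  refine D_congr_line j hs hu (q := (p.1, σ * p.2.1, p.2.2)) ?_ fun t => ?_
  · fin_cases j
    · rfl
    · exact absurd rfl hj
    · rfl
  · unfold fJ
    rw [hp t]
    congr 2
    fin_cases j
    · simp [e]
    · exact absurd rfl hj
    · simp [e]

theorem D1_J (hu : ContDiff ℝ ∞ u) : D 1 (J u) = u := by
  funext p
  obtain ⟨a, b, t⟩ := p
  have h1 := hasDerivAt_snd (smooth_J hu) a b t
  have hc : Continuous fun τ : ℝ => hh τ * u (a, τ, t) :=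
    smooth_hh.continuous.mul (hu.continuous.comp
      (continuous_const.prodMk (continuous_id.prodMk continuous_const)))
  have h2 : HasDerivAt (fun s : ℝ => J u (a, s, t)) (hh b * u (a, b, t)) b :=
    (hc.integral_hasStrictDerivAt 0 b).hasDerivAt
  have h3 := h1.unique h2
  simp only [D]
  rw [h3]
  change (1 + b ^ 2) * √(1 + b ^ 2) * (hh b * u (a, b, t)) = u (a, b, t)
  unfold hh
  have h4 : (1 + b ^ 2) * √(1 + b ^ 2) ≠ 0 := by positivity
  rw [← mul_assoc, mul_inv_cancel₀ h4, one_mul]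

theorem per_J (hp : Per u) : Per (J u) := by
  intro a b t
  unfold J
  refine intervalIntegral.integral_congr fun s _ => ?_
  simp only
  rw [hp]

theorem sl_J (hs : Sl u) : Sl (J u) := by
  intro a b t t'
  unfold J
  refine intervalIntegral.integral_congr fun s _ => ?_
  simp only
  rw [hs a s t t']

theorem J_add (hu : ContDiff ℝ ∞ u) (hv : ContDiff ℝ ∞ v) : J (u + v) = J u + J v := by
  funext p
  unfold J
  rw [Pi.add_apply, ← intervalIntegral.integral_add]
  · refine intervalIntegral.integral_congr fun s _ => ?_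
    simp only [Pi.add_apply]
    ring
  · exact (smooth_hh.continuous.mul (hu.continuous.comp
      (continuous_const.prodMk (continuous_id.prodMk continuous_const)))).intervalIntegrable _ _
  · exact (smooth_hh.continuous.mul (hv.continuous.comp
      (continuous_const.prodMk (continuous_id.prodMk continuous_const)))).intervalIntegrable _ _

theorem J_smul (c : ℝ) (u : Q → ℝ) : J (fun p => c * u p) = fun p => c * J u p := by
  funext p
  unfold J
  rw [← intervalIntegral.integral_const_mul]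
  refine intervalIntegral.integral_congr fun s _ => ?_
  simp only
  ring

theorem J_zero_line (u : Q → ℝ) (a t : ℝ) : J u (a, 0, t) = 0 := by
  unfold J
  exact intervalIntegral.integral_same

theorem abs_J_le {p : Q} {M : ℝ} (hM : ∀ τ, |τ| ≤ |p.2.1| → |u (p.1, τ, p.2.2)| ≤ M) :
    |J u p| ≤ M * |p.2.1| := by
  unfold J
  have h := intervalIntegral.norm_integral_le_of_norm_le_const (a := 0) (b := p.2.1)
    (C := M) (f := fun τ => hh τ * u (p.1, τ, p.2.2)) ?_
  · rwa [sub_zero, Real.norm_eq_abs] at h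
  · intro τ hτ
    have h1 : |τ| ≤ |p.2.1| := by
      rcases le_total 0 p.2.1 with h0 | h0
      · rw [uIoc_of_le h0] at hτ
        rw [abs_of_pos hτ.1, abs_of_nonneg h0]
        exact hτ.2
      · rw [uIoc_of_ge h0] at hτ
        rw [abs_of_nonpos hτ.2, abs_of_nonpos h0]
        linarith [hτ.1]
    have h2 := hM τ h1
    rw [Real.norm_eq_abs, abs_mul, abs_of_nonneg (hh_nonneg τ)]
    calc hh τ * |u (p.1, τ, p.2.2)| ≤ 1 * |u (p.1, τ, p.2.2)| :=
          mul_le_mul_of_nonneg_right (hh_le_one τ) (abs_nonneg _)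
      _ ≤ M := by rwa [one_mul]

end operators

end Vale.Agent.P205.WK
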