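import Vale.Agent.P205.WK.Formal

/-!
The local piece lemma, formal part: the induction step.
-/

namespace Vale.Agent.P205.WK

open FS

variable {R : Type*} [CommRing R] [Algebra ℝ R]

namespace Dat

variable {S : FS R} (d : Dat S)

/-- the correction: existence of `v` and `g` solving the three leading equations -/
theorem corr (n : ℕ) {U : Fin 4 → R} {h F11 F12 F22 : R} (hU : ∀ i, S.Gr d.a (U i))
    (hh : S.Sl h) (h11 : S.Gr d.a F11) (h12 : S.Gr d.a F12) (h22 : S.Gr d.a F22) :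
    ∃ (v : Fin 4 → R) (g : R), (∀ i, S.Gr d.a (v i)) ∧ S.Sl g ∧
      F11 + 2 * (d.Z0 ⬝ᵥ S.vt v) + 2 * S.D1 g * d.G0 = 0 ∧
      F12 + d.X2 ⬝ᵥ S.vt v + S.D2 g * d.G0 = 0 ∧
      F22 + 2 * (S.D2 g * (d.X2 ⬝ᵥ S.vt U) + d.X2 ⬝ᵥ S.v2 v + S.D2 h * (d.X2 ⬝ᵥ S.vt v)
        + d.ep ^ n * (S.D2 g * (d.X2 ⬝ᵥ S.vt v)))
        + 2 * (S.D2 g * ((S.v2 (d.V U) + S.D2 h • S.vt (d.V U)) ⬝ᵥ S.vt d.V0))
        + d.ep ^ n * (S.D2 g ^ 2 * (S.vt d.V0 ⬝ᵥ S.vt d.V0)) = 0 := by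
  have ha := d.sa
  obtain ⟨m, hm, hm'⟩ := h12.mn ha
  -- the phase
  obtain ⟨g, hg, hg2⟩ : ∃ g, S.Sl g ∧ S.D2 g = -m := by
    refine ⟨S.J (S.mn (-m)), S.J_slow _, ?_⟩
    rw [S.D2_J, map_neg, show S.mn m = m from hm]
  have hg1s : S.Sl (S.D1 g) := hg.D1
  have hg2s : S.Sl (S.D2 g) := hg.D2
  -- `y`
  have hyt0 : S.mn (F12 + S.D2 g * d.G0) = 0 := by
    rw [map_add, hg2s.mn_mul, d.mnG0, hm', hg2]; ring
  have hyG : S.Gr d.a (F12 + S.D2 g * d.G0) := h12.add (d.grG0.slmul ha hg2s)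
  obtain ⟨y, hyg, hyt⟩ : ∃ y, S.Gr d.a y ∧ S.Dt y = -(F12 + S.D2 g * d.G0) := by
    refine ⟨-S.pr (F12 + S.D2 g * d.G0), (hyG.pr ha).neg, ?_⟩
    rw [map_neg, S.Dt_pr, hyt0, sub_zero]
  -- `z`
  have hep : S.Sl (d.ep ^ n) := d.sep.pow n
  have hVt : ∀ i, S.Gr d.a (S.vt (d.V U) i) := d.gr_vt (d.grV hU)
  have hWr : ∀ i, S.Gr d.a ((S.v2 (d.V U) + S.D2 h • S.vt (d.V U)) i) :=
    d.gr_add (d.gr_v2 (d.grV hU)) (d.sl_smul_gr hh.D2 hVt)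
  have hV0t : ∀ i, S.Gr d.a (S.vt d.V0 i) := d.gr_vt d.grV0
  set Wr := S.v2 (d.V U) + S.D2 h • S.vt (d.V U) with hWrdef
  have t1 : S.Gr d.a (d.X2 ⬝ᵥ S.vt U) := Gr.dot ha (fun i => (d.sX2 i).os) (d.gr_vt hU)
  have t2 : S.Gr d.a (Wr ⬝ᵥ S.vt d.V0) := Gr.dot ha (fun i => (hWr i).os ha) hV0t
  have t3 : S.Gr d.a (S.vt d.V0 ⬝ᵥ S.vt d.V0) := Gr.dot ha (fun i => (hV0t i).os ha) hV0t
  have t4 : S.Gr d.a (S.Dt y) := hyg.Dt ha
  set z := S.D2 y + S.D2 g * (d.X2 ⬝ᵥ S.vt U) + S.D2 h * S.Dt y + d.ep ^ n * (S.D2 g * S.Dt y)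
    + S.D2 g * (Wr ⬝ᵥ S.vt d.V0)
    + (1 / 2 : ℝ) • (F22 + d.ep ^ n * (S.D2 g ^ 2 * (S.vt d.V0 ⬝ᵥ S.vt d.V0))) with hz
  have hzg : S.Gr d.a z := by
    refine Gr.add (Gr.add (Gr.add (Gr.add (Gr.add (hyg.D2 d.A) (t1.slmul ha hg2s))
      (t4.slmul ha hh.D2)) ((t4.slmul ha hg2s).slmul ha hep)) (t2.slmul ha hg2s)) ?_
    exact Gr.smul _ (h22.add ((t3.slmul ha (hg2s.pow 2)).slmul ha hep))
  -- `k`
  set k := -((1 / 2 : ℝ) • F11) - S.D1 g * d.G0 - d.c1 * S.Dt y - d.c2 * S.Dt z with hk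
  have hkg : S.Gr d.a k :=
    (((h11.smul _).neg.sub (d.grG0.slmul ha hg1s)).sub (t4.slmul ha d.sc1)).sub
      ((hzg.Dt ha).slmul ha d.sc2)
  obtain ⟨m1, hm1, hm1'⟩ := (hkg.mul_os ha d.osE1).mn ha
  obtain ⟨m2, hm2, hm2'⟩ := (hkg.mul_os ha (d.grE2.os ha)).mn ha
  set z1 := -(m1 * d.ri * d.Gi) with hz1
  set z2 := -(d.a ^ 2 * (m2 * d.ri * d.Gb)) with hz2
  have sz1 : S.Sl z1 := ((hm1.mul d.sri).mul d.sGi).neg
  have sz2 : S.Sl z2 := ((ha.pow 2).mul ((hm2.mul d.sri).mul d.sGb)).neg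
  have gz2 : S.Gr d.a z2 := by
    refine Gr.neg ?_
    exact ⟨0, m2 * d.ri * d.Gb, map_zero _, (hm2.mul d.sri).mul d.sGb, by ring⟩
  set ta := -(z1 * d.e2) + z2 * d.e1 with hta
  set s1 := k * d.ri * d.e1 - ta * d.e2 with hs1
  set s2 := k * d.ri * d.e2 + ta * d.e1 with hs2
  have hkri : S.Gr d.a (k * d.ri) := hkg.mul_os ha d.sri.os
  have htag : S.Gr d.a ta := (d.grE2.slmul ha sz1).neg.add (gz2.mul_os ha d.osE1)
  have hs1g : S.Gr d.a s1 := (hkri.mul_os ha d.osE1).sub (htag.mul_os ha (d.grE2.os ha))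
  have hs2g : S.Gr d.a s2 := (hkri.mul_os ha (d.grE2.os ha)).add (htag.mul_os ha d.osE1)
  have hms1 : S.mn s1 = 0 := by
    have e : s1 = d.ri * (k * d.e1) + z1 * (d.e2 ^ 2) - z2 * (d.e1 * d.e2) := by
      rw [hs1, hta]; ring
    rw [e, map_sub, map_add, d.sri.mn_mul, sz1.mn_mul, sz2.mn_mul, hm1', d.me22, d.me12, hz1]
    linear_combination (-(m1 * d.ri * d.a ^ 2)) * d.hGi
  have hms2 : S.mn s2 = 0 := by
    have e : s2 = d.ri * (k * d.e2) - z1 * (d.e1 * d.e2) + z2 * (d.e1 ^ 2) := by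
      rw [hs2, hta]; ring
    rw [e, map_add, map_sub, d.sri.mn_mul, sz1.mn_mul, sz2.mn_mul, hm2', d.me12, hz2]
    linear_combination (-(m2 * d.ri * d.a ^ 2)) * d.me11
  have hri : (d.e1 ^ 2 + d.e2 ^ 2) * d.ri = 1 := by rw [d.he]; exact d.hri
  -- `v`
  set al := d.g11 * y + d.g12 * z with hal
  set be := d.g12 * y + d.g22 * z with hbe
  have halg : S.Gr d.a al := (hyg.slmul ha d.sg11).add (hzg.slmul ha d.sg12)
  have hbeg : S.Gr d.a be := (hyg.slmul ha d.sg12).add (hzg.slmul ha d.sg22)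
  set v : Fin 4 → R := al • d.X2 + be • d.N + (S.pr s1 • d.q1 + S.pr s2 • d.q2) with hv
  have gr3' : d.g11 * (d.X2 ⬝ᵥ d.N) + d.g12 * (d.N ⬝ᵥ d.N) = 0 := d.gr3
  have gr4' : d.g12 * (d.X2 ⬝ᵥ d.N) + d.g22 * (d.N ⬝ᵥ d.N) = 1 := d.gr4
  have gr1' : d.g11 * (d.X2 ⬝ᵥ d.X2) + d.g12 * (d.X2 ⬝ᵥ d.N) = 1 := d.gr1
  have gr2' : d.g12 * (d.X2 ⬝ᵥ d.X2) + d.g22 * (d.X2 ⬝ᵥ d.N) = 0 := d.gr2
  have hXv : d.X2 ⬝ᵥ v = y := by
    rw [hv]
    simp only [dotProduct_add, dotProduct_smul, smul_eq_mul, d.Xq1, d.Xq2]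
    rw [hal, hbe]
    linear_combination y * gr1' + z * gr2'
  have hNv : d.N ⬝ᵥ v = z := by
    rw [hv]
    simp only [dotProduct_add, dotProduct_smul, smul_eq_mul, d.Nq1, d.Nq2]
    rw [hal, hbe, dotProduct_comm d.N d.X2]
    linear_combination y * gr3' + z * gr4'
  have hvg : ∀ i, S.Gr d.a (v i) :=
    d.gr_add (d.gr_add (d.gr_slow_smul halg d.sX2) (d.gr_slow_smul hbeg d.sN))
      (d.gr_add (d.gr_slow_smul (hs1g.pr ha) d.sq1) (d.gr_slow_smul (hs2g.pr ha) d.sq2))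
  have hvt : S.vt v = S.Dt al • d.X2 + S.Dt be • d.N + (s1 • d.q1 + s2 • d.q2) := by
    rw [hv]
    simp only [vt_add, vt_smul, vt_slow d.sX2, vt_slow d.sN, vt_slow d.sq1, vt_slow d.sq2,
      S.Dt_pr, hms1, hms2, smul_zero, add_zero, sub_zero]
  have hXvt : d.X2 ⬝ᵥ S.vt v = S.Dt y := by
    have := S.Dt_dot d.X2 v
    rw [hXv, vt_slow d.sX2, zero_dotProduct, zero_add] at this
    exact this.symm
  have hNvt : d.N ⬝ᵥ S.vt v = S.Dt z := by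
    have := S.Dt_dot d.N v
    rw [hNv, vt_slow d.sN, zero_dotProduct, zero_add] at this
    exact this.symm
  have hq1vt : d.q1 ⬝ᵥ S.vt v = s1 := by
    rw [hvt]
    simp only [dotProduct_add, dotProduct_smul, smul_eq_mul, d.q1X', d.q1N', d.q11, d.q12]
    ring
  have hq2vt : d.q2 ⬝ᵥ S.vt v = s2 := by
    rw [hvt]
    simp only [dotProduct_add, dotProduct_smul, smul_eq_mul, d.q2X', d.q2N', d.q21, d.q22]
    ring
  have hXv2 : d.X2 ⬝ᵥ S.v2 v = S.D2 y - z := by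
    have := S.D2_dot d.X2 v
    rw [hXv, show S.v2 d.X2 = d.N from rfl, hNv] at this
    rw [this]; ring
  refine ⟨v, g, hvg, hg, ?_, ?_, ?_⟩
  · rw [d.Z0_eq]
    simp only [add_dotProduct, smul_dotProduct, smul_eq_mul, hXvt, hNvt, hq1vt, hq2vt]
    have hhalf : F11 = 2 * ((1 / 2 : ℝ) • F11) := by
      rw [two_mul, ← add_smul]; norm_num
    have hk' : (1 / 2 : ℝ) • F11 = -(k + S.D1 g * d.G0 + d.c1 * S.Dt y + d.c2 * S.Dt z) := by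
      rw [hk]; ring
    rw [hhalf, hk', hs1, hs2]
    linear_combination (2 * k) * hri
  · rw [hXvt, hyt]; ring
  · rw [hXvt, hXv2]
    have hhalf : (2 : R) * ((1 / 2 : ℝ) •
        (F22 + d.ep ^ n * (S.D2 g ^ 2 * (S.vt d.V0 ⬝ᵥ S.vt d.V0)))) =
        F22 + d.ep ^ n * (S.D2 g ^ 2 * (S.vt d.V0 ⬝ᵥ S.vt d.V0)) := by
      rw [two_mul, ← add_smul]; norm_num
    rw [hz]
    linear_combination -hhalf

lemma vadd_eq (n : ℕ) (U v : Fin 4 → R) : d.V (U + d.ep ^ n • v) = d.V U + d.ep ^ (n + 1) • v := by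
  ext i
  simp only [V, Pi.add_apply, Pi.smul_apply, smul_eq_mul]
  ring

lemma D1ep (n : ℕ) : S.D1 (d.ep ^ n) = 0 := by
  induction n with
  | zero =>
    have h := S.D1_mul 1 1
    rw [mul_one, mul_one, one_mul] at h
    rw [pow_zero]
    have h2 : S.D1 (1 : R) + 0 = S.D1 1 + S.D1 1 := by rw [add_zero]; exact h
    exact (add_left_cancel h2).symm
  | succ n ih => rw [pow_succ, S.D1_mul, ih, d.ep1]; ring

lemma D2ep (n : ℕ) : S.D2 (d.ep ^ n) = 0 := by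
  induction n with
  | zero =>
    have h := S.D2_mul 1 1
    rw [mul_one, mul_one, one_mul] at h
    rw [pow_zero]
    have h2 : S.D2 (1 : R) + 0 = S.D2 1 + S.D2 1 := by rw [add_zero]; exact h
    exact (add_left_cancel h2).symm
  | succ n ih => rw [pow_succ, S.D2_mul, ih, d.ep2]; ring

/-- first increment -/
def AA (n : ℕ) (U : Fin 4 → R) (h : R) (v : Fin 4 → R) (g : R) : Fin 4 → R :=
  S.vt v + S.D1 g • S.vt d.V0 + d.ep • (S.D1 g • S.vt U + S.v1 v + S.D1 h • S.vt v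
    + d.ep ^ n • (S.D1 g • S.vt v))

/-- second increment -/
def BB (n : ℕ) (U : Fin 4 → R) (h : R) (v : Fin 4 → R) (g : R) : Fin 4 → R :=
  S.D2 g • S.vt d.V0 + d.ep • (S.D2 g • S.vt U + S.v2 v + S.D2 h • S.vt v
    + d.ep ^ n • (S.D2 g • S.vt v))

lemma Z_step (n : ℕ) (U : Fin 4 → R) (h : R) (v : Fin 4 → R) (g : R) :
    d.Z (U + d.ep ^ n • v) (h + d.ep ^ n * g) = d.Z U h + d.ep ^ (n + 1) • d.AA n U h v g := by
  have e1 : S.Dt (d.ep ^ (n + 1)) = 0 := (d.sep.pow (n + 1)).Dt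
  have e2 : S.Dt d.ep = 0 := d.sep.Dt
  have e3 := d.D1ep (n + 1)
  have e4 := d.D1ep n
  ext i
  simp only [Z, AA, d.vadd_eq, vt_add, v1_add, vt_smul, v1_smul, map_add, S.D1_mul, e1, e3, e4]
  have e5 : S.vt (d.V U) = S.vt d.V0 + d.ep • S.vt U := by
    rw [V, vt_add, vt_smul, e2, zero_smul, zero_add]
  rw [e5]
  simp only [Pi.add_apply, Pi.smul_apply, smul_eq_mul]
  ring

lemma W_step (n : ℕ) (U : Fin 4 → R) (h : R) (v : Fin 4 → R) (g : R) :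
    d.W (U + d.ep ^ n • v) (h + d.ep ^ n * g) = d.W U h + d.ep ^ (n + 1) • d.BB n U h v g := by
  have e1 : S.Dt (d.ep ^ (n + 1)) = 0 := (d.sep.pow (n + 1)).Dt
  have e2 : S.Dt d.ep = 0 := d.sep.Dt
  have e3 := d.D2ep (n + 1)
  have e4 := d.D2ep n
  ext i
  simp only [W, BB, d.vadd_eq, vt_add, v2_add, vt_smul, v2_smul, map_add, S.D2_mul, e1, e3, e4]
  have e5 : S.vt (d.V U) = S.vt d.V0 + d.ep • S.vt U := by
    rw [V, vt_add, vt_smul, e2, zero_smul, zero_add]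
  rw [e5]
  simp only [Pi.add_apply, Pi.smul_apply, smul_eq_mul]
  ring

/-- the induction step -/
theorem st_succ {n : ℕ} {U : Fin 4 → R} {h : R} (hs : d.St n U h) :
    ∃ v g, (∀ i, S.Gr d.a (v i)) ∧ S.Sl g ∧
      d.St (n + 1) (U + d.ep ^ n • v) (h + d.ep ^ n * g) := by
  obtain ⟨hU, hh, F11, F12, F22, h11, h12, h22, E11, E12, E22⟩ := hs
  obtain ⟨v, g, hv, hg, c11, c12, c22⟩ := d.corr n hU hh h11 h12 h22
  have ha := d.sa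
  have hep : S.Sl (d.ep ^ n) := d.sep.pow n
  refine ⟨v, g, hv, hg, d.gr_add hU (d.sl_smul_gr hep hv), hh.add (hep.mul hg), ?_⟩
  -- notation
  set Zr : Fin 4 → R := S.vt U + S.v1 (d.V U) + S.D1 h • S.vt (d.V U) with hZr
  set Wr : Fin 4 → R := S.v2 (d.V U) + S.D2 h • S.vt (d.V U) with hWr
  set A1 : Fin 4 → R := S.D1 g • S.vt U + S.v1 v + S.D1 h • S.vt v
    + d.ep ^ n • (S.D1 g • S.vt v) with hA1
  set B1 : Fin 4 → R := S.D2 g • S.vt U + S.v2 v + S.D2 h • S.vt v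
    + d.ep ^ n • (S.D2 g • S.vt v) with hB1
  have hAA : d.AA n U h v g = S.vt v + S.D1 g • S.vt d.V0 + d.ep • A1 := rfl
  have hBB : d.BB n U h v g = S.D2 g • S.vt d.V0 + d.ep • B1 := rfl
  set A := d.AA n U h v g with hA
  set B := d.BB n U h v g with hB
  have hZe : d.Z U h = d.Z0 + d.ep • Zr := by
    have e2 : S.Dt d.ep = 0 := d.sep.Dt
    have e5 : S.vt (d.V U) = S.vt d.V0 + d.ep • S.vt U := by
      rw [V, vt_add, vt_smul, e2, zero_smul, zero_add]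
    rw [Z, Z0, hZr, e5]
    ext i
    simp only [Pi.add_apply, Pi.smul_apply, smul_eq_mul]
    ring
  have hWe : d.W U h = d.X2 + d.ep • Wr := rfl
  -- grades
  have gU := d.gr_vt hU
  have gv := d.gr_vt hv
  have gV0 := d.gr_vt d.grV0
  have gVt := d.gr_vt (d.grV hU)
  have gZr : ∀ i, S.Gr d.a (Zr i) :=
    d.gr_add (d.gr_add gU (d.gr_v1 (d.grV hU))) (d.sl_smul_gr hh.D1 gVt)
  have gWr : ∀ i, S.Gr d.a (Wr i) :=
    d.gr_add (d.gr_v2 (d.grV hU)) (d.sl_smul_gr hh.D2 gVt)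
  have gA1 : ∀ i, S.Gr d.a (A1 i) :=
    d.gr_add (d.gr_add (d.gr_add (d.sl_smul_gr hg.D1 gU) (d.gr_v1 hv)) (d.sl_smul_gr hh.D1 gv))
      (d.sl_smul_gr hep (d.sl_smul_gr hg.D1 gv))
  have gB1 : ∀ i, S.Gr d.a (B1 i) :=
    d.gr_add (d.gr_add (d.gr_add (d.sl_smul_gr hg.D2 gU) (d.gr_v2 hv)) (d.sl_smul_gr hh.D2 gv))
      (d.sl_smul_gr hep (d.sl_smul_gr hg.D2 gv))
  have gA : ∀ i, S.Gr d.a (A i) := by
    rw [hAA]
    exact d.gr_add (d.gr_add gv (d.sl_smul_gr hg.D1 gV0)) (d.sl_smul_gr d.sep gA1)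
  have gB : ∀ i, S.Gr d.a (B i) := by
    rw [hBB]
    exact d.gr_add (d.sl_smul_gr hg.D2 gV0) (d.sl_smul_gr d.sep gB1)
  have os : ∀ {x : Fin 4 → R}, (∀ i, S.Gr d.a (x i)) → ∀ i, S.Os d.a (x i) :=
    fun hx i => (hx i).os ha
  refine ⟨2 * (Zr ⬝ᵥ A) + 2 * (d.Z0 ⬝ᵥ A1) + d.ep ^ n * (A ⬝ᵥ A),
    d.X2 ⬝ᵥ A1 + Wr ⬝ᵥ A + Zr ⬝ᵥ B + d.Z0 ⬝ᵥ B1 + d.ep ^ n * (A ⬝ᵥ B),
    2 * (Wr ⬝ᵥ B1) + d.ep ^ n * (2 * (S.D2 g * (S.vt d.V0 ⬝ᵥ B1)) + d.ep * (B1 ⬝ᵥ B1)),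
    ?_, ?_, ?_, ?_, ?_, ?_⟩
  · have a1 : S.Gr d.a (Zr ⬝ᵥ A) := Gr.dot ha (os gZr) gA
    have a2 : S.Gr d.a (d.Z0 ⬝ᵥ A1) := Gr.dot ha d.osZ0 gA1
    have a3 : S.Gr d.a (A ⬝ᵥ A) := Gr.dot ha (os gA) gA
    rw [two_mul, two_mul]
    exact ((a1.add a1).add (a2.add a2)).add (a3.slmul ha hep)
  · have a1 : S.Gr d.a (d.X2 ⬝ᵥ A1) := Gr.dot ha (fun i => (d.sX2 i).os) gA1
    have a2 : S.Gr d.a (Wr ⬝ᵥ A) := Gr.dot ha (os gWr) gA
    have a3 : S.Gr d.a (Zr ⬝ᵥ B) := Gr.dot ha (os gZr) gB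
    have a4 : S.Gr d.a (d.Z0 ⬝ᵥ B1) := Gr.dot ha d.osZ0 gB1
    have a5 : S.Gr d.a (A ⬝ᵥ B) := Gr.dot ha (os gA) gB
    exact (((a1.add a2).add a3).add a4).add (a5.slmul ha hep)
  · have a1 : S.Gr d.a (Wr ⬝ᵥ B1) := Gr.dot ha (os gWr) gB1
    have a2 : S.Gr d.a (S.vt d.V0 ⬝ᵥ B1) := Gr.dot ha (os gV0) gB1
    have a3 : S.Gr d.a (B1 ⬝ᵥ B1) := Gr.dot ha (os gB1) gB1
    have a4 := a2.slmul ha hg.D2
    rw [two_mul, two_mul]
    exact (a1.add a1).add (((a4.add a4).add (a3.slmul ha d.sep)).slmul ha hep)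
  · -- (11)
    rw [d.Z_step n U h v g, ← hA]
    have e0 : (d.Z U h + d.ep ^ (n + 1) • A) ⬝ᵥ (d.Z U h + d.ep ^ (n + 1) • A) =
        d.Z U h ⬝ᵥ d.Z U h + 2 * d.ep ^ (n + 1) * (d.Z U h ⬝ᵥ A)
          + d.ep ^ (n + 1) * d.ep ^ (n + 1) * (A ⬝ᵥ A) := by
      simp only [add_dotProduct, dotProduct_add, smul_dotProduct, dotProduct_smul, smul_eq_mul,
        dotProduct_comm A (d.Z U h)]
      ring
    have e1 : d.Z U h ⬝ᵥ A = d.Z0 ⬝ᵥ S.vt v + S.D1 g * d.G0 + d.ep * (d.Z0 ⬝ᵥ A1)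
        + d.ep * (Zr ⬝ᵥ A) := by
      rw [hZe, add_dotProduct, smul_dotProduct, smul_eq_mul]
      congr 1
      rw [hAA]
      simp only [dotProduct_add, dotProduct_smul, smul_eq_mul, d.Z0vtV0]
    rw [e0, e1, E11]
    linear_combination d.ep ^ (n + 1) * c11
  · -- (12)
    rw [d.Z_step n U h v g, d.W_step n U h v g, ← hA, ← hB]
    have e0 : (d.Z U h + d.ep ^ (n + 1) • A) ⬝ᵥ (d.W U h + d.ep ^ (n + 1) • B) =
        d.Z U h ⬝ᵥ d.W U h + d.ep ^ (n + 1) * (d.W U h ⬝ᵥ A + d.Z U h ⬝ᵥ B)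
          + d.ep ^ (n + 1) * d.ep ^ (n + 1) * (A ⬝ᵥ B) := by
      simp only [add_dotProduct, dotProduct_add, smul_dotProduct, dotProduct_smul, smul_eq_mul,
        dotProduct_comm A (d.W U h)]
      ring
    have e1 : d.W U h ⬝ᵥ A = d.X2 ⬝ᵥ S.vt v + d.ep * (d.X2 ⬝ᵥ A1) + d.ep * (Wr ⬝ᵥ A) := by
      rw [hWe, add_dotProduct, smul_dotProduct, smul_eq_mul]
      congr 1
      rw [hAA]
      have : d.X2 ⬝ᵥ S.vt d.V0 = 0 := by rw [dotProduct_comm]; exact d.vtV0X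
      simp only [dotProduct_add, dotProduct_smul, smul_eq_mul, this, mul_zero, add_zero]
    have e2 : d.Z U h ⬝ᵥ B = S.D2 g * d.G0 + d.ep * (d.Z0 ⬝ᵥ B1) + d.ep * (Zr ⬝ᵥ B) := by
      rw [hZe, add_dotProduct, smul_dotProduct, smul_eq_mul]
      congr 1
      rw [hBB]
      simp only [dotProduct_add, dotProduct_smul, smul_eq_mul, d.Z0vtV0]
    rw [e0, e1, e2, E12]
    linear_combination d.ep ^ (n + 1) * c12
  · -- (22)
    rw [d.W_step n U h v g, ← hB]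
    have e0 : (d.W U h + d.ep ^ (n + 1) • B) ⬝ᵥ (d.W U h + d.ep ^ (n + 1) • B) =
        d.W U h ⬝ᵥ d.W U h + 2 * d.ep ^ (n + 1) * (d.W U h ⬝ᵥ B)
          + d.ep ^ (n + 1) * d.ep ^ (n + 1) * (B ⬝ᵥ B) := by
      simp only [add_dotProduct, dotProduct_add, smul_dotProduct, dotProduct_smul, smul_eq_mul,
        dotProduct_comm B (d.W U h)]
      ring
    have e1 : d.W U h ⬝ᵥ B = d.ep * (d.X2 ⬝ᵥ B1) + d.ep * (S.D2 g * (Wr ⬝ᵥ S.vt d.V0))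
        + d.ep * d.ep * (Wr ⬝ᵥ B1) := by
      have : d.X2 ⬝ᵥ S.vt d.V0 = 0 := by rw [dotProduct_comm]; exact d.vtV0X
      rw [hWe, hBB]
      simp only [add_dotProduct, smul_dotProduct, dotProduct_add, dotProduct_smul, smul_eq_mul,
        this]
      ring
    have e2 : B ⬝ᵥ B = S.D2 g ^ 2 * (S.vt d.V0 ⬝ᵥ S.vt d.V0)
        + 2 * d.ep * (S.D2 g * (S.vt d.V0 ⬝ᵥ B1)) + d.ep * d.ep * (B1 ⬝ᵥ B1) := by
      rw [hBB]
      simp only [add_dotProduct, smul_dotProduct, dotProduct_add, dotProduct_smul, smul_eq_mul,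
        dotProduct_comm B1 (S.vt d.V0)]
      ring
    have e3 : d.X2 ⬝ᵥ B1 = S.D2 g * (d.X2 ⬝ᵥ S.vt U) + d.X2 ⬝ᵥ S.v2 v
        + S.D2 h * (d.X2 ⬝ᵥ S.vt v) + d.ep ^ n * (S.D2 g * (d.X2 ⬝ᵥ S.vt v)) := by
      rw [hB1]
      simp only [dotProduct_add, dotProduct_smul, smul_eq_mul]
    rw [e0, e1, e2, e3, E22]
    linear_combination d.ep ^ (n + 2) * c22

/-- **the formal local piece lemma**: all orders -/
theorem formal (n : ℕ) : ∃ (U : Fin 4 → R) (h : R), d.St n U h := by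
  induction n with
  | zero => exact ⟨0, 0, d.st_zero⟩
  | succ n ih =>
    obtain ⟨U, h, hs⟩ := ih
    obtain ⟨v, g, -, -, hs'⟩ := d.st_succ hs
    exact ⟨_, _, hs'⟩

end Dat

end Vale.Agent.P205.WK
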